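import Mathlib

/-!
# Averages of multiplicative weights, and a divisor bound
-/

namespace Vale.Agent.P028

open Finset

/-- `∏_{p ∣ n} (1 + a p)`. -/
noncomputable def mulWt (a : ℕ → ℝ) (n : ℕ) : ℝ := ∏ p ∈ n.primeFactors, (1 + a p)

lemma prod_dvd_iff_forall (T : Finset ℕ) (hT : ∀ p ∈ T, p.Prime) (x : ℤ) :
    ((∏ p ∈ T, p : ℕ) : ℤ) ∣ x ↔ ∀ p ∈ T, (p : ℤ) ∣ x := by
  constructor
  · intro h p hp
    exact (Int.natCast_dvd_natCast.2 (Finset.dvd_prod_of_mem _ hp)).trans h
  · intro h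
    rw [Int.natCast_dvd]
    exact Finset.prod_primes_dvd _ (fun p hp => (hT p hp).prime)
      (fun p hp => Int.natCast_dvd.1 (h p hp))

/-- Weighted sums of `mulWt a` over a finite set. -/
lemma sum_mul_mulWt_le (a : ℕ → ℝ) (S : Finset ℕ) (g : ℕ → ℝ) (G C : ℝ)
    (ha : ∀ p, p.Prime → 0 ≤ a p) (hG : 0 ≤ G) (hS : ∀ n ∈ S, 0 < n)
    (hg : ∀ e : ℕ, 0 < e → ∑ n ∈ S.filter (fun n => e ∣ n), g n ≤ G / e)
    (hC : ∀ P : Finset ℕ, (∀ p ∈ P, p.Prime) → ∑ p ∈ P, a p / p ≤ C) :
    ∑ n ∈ S, g n * mulWt a n ≤ G * Real.exp C := by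
  classical
  set P : Finset ℕ := S.biUnion Nat.primeFactors with hP
  have hPp : ∀ p ∈ P, p.Prime := by
    intro p hp
    rw [hP, Finset.mem_biUnion] at hp
    obtain ⟨n, _, hn⟩ := hp
    exact Nat.prime_of_mem_primeFactors hn
  have key : ∀ n ∈ S, mulWt a n
      = ∑ T ∈ P.powerset, if (∏ p ∈ T, p) ∣ n then ∏ p ∈ T, a p else 0 := by
    intro n hn
    rw [mulWt, Finset.prod_one_add, ← Finset.sum_filter]
    refine Finset.sum_congr ?_ (fun _ _ => rfl)
    ext T
    simp only [Finset.mem_powerset, Finset.mem_filter]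
    constructor
    · intro hT
      refine ⟨hT.trans (Finset.subset_biUnion_of_mem Nat.primeFactors hn), ?_⟩
      exact (Finset.prod_dvd_prod_of_subset _ _ _ hT).trans n.prod_primeFactors_dvd
    · rintro ⟨hT, hd⟩ p hp
      exact Nat.mem_primeFactors.2
        ⟨hPp p (hT hp), (Finset.dvd_prod_of_mem _ hp).trans hd, (hS n hn).ne'⟩
  calc ∑ n ∈ S, g n * mulWt a n
      = ∑ T ∈ P.powerset, (∏ p ∈ T, a p) *
          ∑ n ∈ S.filter (fun n => (∏ p ∈ T, p) ∣ n), g n := by
        rw [Finset.sum_congr rfl (fun n hn => by rw [key n hn, Finset.mul_sum])]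
        rw [Finset.sum_comm]
        refine Finset.sum_congr rfl (fun T _ => ?_)
        rw [Finset.mul_sum, Finset.sum_filter]
        refine Finset.sum_congr rfl (fun n _ => ?_)
        split_ifs <;> ring
    _ ≤ ∑ T ∈ P.powerset, (∏ p ∈ T, a p) * (G / ((∏ p ∈ T, p : ℕ) : ℝ)) := by
        refine Finset.sum_le_sum (fun T hT => ?_)
        have hT' : ∀ p ∈ T, p.Prime := fun p hp => hPp p (Finset.mem_powerset.1 hT hp)
        refine mul_le_mul_of_nonneg_left (hg _ ?_) (Finset.prod_nonneg fun p hp => ha p (hT' p hp))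
        exact Finset.prod_pos fun p hp => (hT' p hp).pos
    _ = G * ∏ p ∈ P, (1 + a p / p) := by
        rw [Finset.prod_one_add, Finset.mul_sum]
        refine Finset.sum_congr rfl (fun T _ => ?_)
        rw [Finset.prod_div_distrib]
        push_cast
        ring
    _ ≤ G * Real.exp C := by
        refine mul_le_mul_of_nonneg_left ?_ hG
        calc ∏ p ∈ P, (1 + a p / p) ≤ ∏ p ∈ P, Real.exp (a p / p) := by
              refine Finset.prod_le_prod (fun p hp => ?_) (fun p _ => ?_)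
              · have := ha p (hPp p hp); positivity
              · linarith [Real.add_one_le_exp (a p / p)]
          _ = Real.exp (∑ p ∈ P, a p / p) := (Real.exp_sum _ _).symm
          _ ≤ Real.exp C := Real.exp_le_exp.2 (hC P hPp)

/-- Sum of inverse squares of natural numbers above a bound. -/
lemma sum_inv_sq_gt_le (P : Finset ℕ) (z : ℕ) (h : ∀ p ∈ P, z < p) :
    ∑ p ∈ P, 1 / (p : ℝ) ^ 2 ≤ 2 / ((z : ℝ) + 1) := by
  refine le_trans ?_ (sum_Ioo_inv_sq_le (α := ℝ) z (P.sup id + 1))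
  simp only [one_div]
  refine Finset.sum_le_sum_of_subset_of_nonneg (fun p hp => ?_) (fun p _ _ => by positivity)
  have := Finset.le_sup (f := id) hp
  simp only [id] at this
  rw [Finset.mem_Ioo]
  exact ⟨h p hp, Nat.lt_succ_of_le this⟩

/-- `(p/(p-1))^m - 1`. -/
noncomputable def ratioCoef (m p : ℕ) : ℝ := ((p : ℝ) / ((p : ℝ) - 1)) ^ m - 1

lemma one_le_ratio {p : ℕ} (hp : p.Prime) : (1 : ℝ) ≤ (p : ℝ) / ((p : ℝ) - 1) := by
  have h2 : (2 : ℝ) ≤ p := by exact_mod_cast hp.two_le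
  rw [one_le_div (by linarith)]
  linarith

lemma ratioCoef_nonneg {p : ℕ} (hp : p.Prime) (m : ℕ) : 0 ≤ ratioCoef m p := by
  have := one_le_pow₀ (n := m) (one_le_ratio hp)
  unfold ratioCoef
  linarith

lemma ratioCoef_le {p : ℕ} (hp : p.Prime) (m : ℕ) (hm : m ≤ 2 * p) :
    ratioCoef m p ≤ Real.exp 4 * (2 * (m : ℝ) / p) := by
  have h2 : (2 : ℝ) ≤ p := by exact_mod_cast hp.two_le
  have hmp : (m : ℝ) ≤ 2 * p := by exact_mod_cast hm
  set x : ℝ := (m : ℝ) * (1 / ((p : ℝ) - 1)) with hx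
  have h1 : (p : ℝ) / ((p : ℝ) - 1) ≤ Real.exp (1 / ((p : ℝ) - 1)) := by
    refine le_trans (le_of_eq ?_) (Real.add_one_le_exp _)
    have : (p : ℝ) - 1 ≠ 0 := by linarith
    field_simp
    ring
  have h0 : 0 ≤ (p : ℝ) / ((p : ℝ) - 1) := le_trans zero_le_one (one_le_ratio hp)
  have h3 : ((p : ℝ) / ((p : ℝ) - 1)) ^ m ≤ Real.exp x := by
    rw [hx, Real.exp_nat_mul]
    exact pow_le_pow_left₀ h0 h1 m
  have hx2 : x ≤ 2 * (m : ℝ) / p := by
    rw [hx, mul_one_div, div_le_div_iff₀ (by linarith) (by linarith)]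
    nlinarith [Nat.cast_nonneg (α := ℝ) m]
  have hx0 : 0 ≤ x := by
    rw [hx]
    have : 0 < (p : ℝ) - 1 := by linarith
    positivity
  have hx4 : x ≤ 4 := hx2.trans (by rw [div_le_iff₀ (by linarith)]; linarith)
  have h4 : Real.exp x - 1 ≤ x * Real.exp x := by
    have h := Real.add_one_le_exp (-x)
    have e : Real.exp (-x) * Real.exp x = 1 := by rw [← Real.exp_add]; simp
    nlinarith [Real.exp_pos x]
  calc ratioCoef m p ≤ Real.exp x - 1 := by unfold ratioCoef; linarith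
    _ ≤ x * Real.exp x := h4
    _ ≤ (2 * (m : ℝ) / p) * Real.exp 4 := by
        apply mul_le_mul hx2 (Real.exp_le_exp.2 hx4) (Real.exp_pos x).le (by positivity)
    _ = _ := mul_comm _ _

/-- `∏_{p ∣ n, z < p} (p/(p-1))^m`, as a `mulWt`. -/
noncomputable def bigPrimeCoef (z m p : ℕ) : ℝ := if z < p then ratioCoef m p else 0

lemma bigPrimeCoef_nonneg {p : ℕ} (hp : p.Prime) (z m : ℕ) : 0 ≤ bigPrimeCoef z m p := by
  unfold bigPrimeCoef
  split_ifs
  · exact ratioCoef_nonneg hp m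
  · exact le_rfl

/-- `(∏_{p ∣ n, z < p} p/(p-1))`. -/
noncomputable def bigPrimeRatio (z n : ℕ) : ℝ :=
  ∏ p ∈ n.primeFactors.filter (fun p => z < p), (p : ℝ) / ((p : ℝ) - 1)

lemma one_le_bigPrimeRatio (z n : ℕ) : 1 ≤ bigPrimeRatio z n :=
  Finset.one_le_prod fun p hp =>
    one_le_ratio (Nat.prime_of_mem_primeFactors (Finset.mem_of_mem_filter _ hp))

lemma bigPrimeRatio_pow (z m n : ℕ) : bigPrimeRatio z n ^ m = mulWt (bigPrimeCoef z m) n := by
  rw [bigPrimeRatio, mulWt, ← Finset.prod_pow, Finset.prod_filter]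
  refine Finset.prod_congr rfl fun p _ => ?_
  unfold bigPrimeCoef ratioCoef
  split_ifs <;> ring

/-- Absolute constant for the moment bounds. -/
noncomputable def momentConst : ℝ := Real.exp (24 * Real.exp 4)

lemma momentConst_pos : 0 < momentConst := Real.exp_pos _

lemma sum_bigPrimeCoef_le (z m : ℕ) (hm : m ≤ z + 2 ∨ m ≤ 4) (P : Finset ℕ)
    (hP : ∀ p ∈ P, p.Prime) :
    ∑ p ∈ P, bigPrimeCoef z m p / p ≤ 24 * Real.exp 4 := by
  classical
  have hb : ∀ p ∈ P, bigPrimeCoef z m p / p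
      ≤ if z < p then Real.exp 4 * (2 * (m : ℝ)) * (1 / (p : ℝ) ^ 2) else 0 := by
    intro p hp
    have h2 := (hP p hp).two_le
    have hp0 : (0 : ℝ) < p := by exact_mod_cast (hP p hp).pos
    unfold bigPrimeCoef
    split_ifs with hz
    · have := ratioCoef_le (hP p hp) m (by omega)
      rw [div_le_iff₀ hp0]
      refine this.trans (le_of_eq ?_)
      field_simp
    · simp
  refine (Finset.sum_le_sum hb).trans ?_
  rw [← Finset.sum_filter, ← Finset.mul_sum]
  have h2 : ∑ p ∈ P.filter (fun p => z < p), 1 / (p : ℝ) ^ 2 ≤ 2 / ((z : ℝ) + 1) :=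
    sum_inv_sq_gt_le _ z fun p hp => (Finset.mem_filter.1 hp).2
  refine (mul_le_mul_of_nonneg_left h2 (by positivity)).trans ?_
  have hm' : (m : ℝ) ≤ 6 * ((z : ℝ) + 1) := by
    have : m ≤ 6 * (z + 1) := by omega
    exact_mod_cast this
  have hz : (0 : ℝ) < (z : ℝ) + 1 := by positivity
  rw [mul_div_assoc', div_le_iff₀ hz]
  nlinarith [Real.exp_pos 4, hm']

lemma sum_mul_bigPrimeRatio_pow_le (z m : ℕ) (hm : m ≤ z + 2 ∨ m ≤ 4) (S : Finset ℕ)
    (g : ℕ → ℝ) (G : ℝ) (hG : 0 ≤ G) (hS : ∀ n ∈ S, 0 < n)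
    (hg : ∀ e : ℕ, 0 < e → ∑ n ∈ S.filter (fun n => e ∣ n), g n ≤ G / e) :
    ∑ n ∈ S, g n * bigPrimeRatio z n ^ m ≤ G * momentConst := by
  simp only [bigPrimeRatio_pow]
  exact sum_mul_mulWt_le _ S g G _ (fun p hp => bigPrimeCoef_nonneg hp z m) hG hS hg
    (fun P hP => sum_bigPrimeCoef_le z m hm P hP)

lemma sum_bigPrimeRatio_pow_le (z m : ℕ) (hm : m ≤ z + 2 ∨ m ≤ 4) (N : ℕ) :
    ∑ n ∈ Finset.Ioc 0 N, bigPrimeRatio z n ^ m ≤ momentConst * N := by
  have := sum_mul_bigPrimeRatio_pow_le z m hm (Finset.Ioc 0 N) (fun _ => 1) N (Nat.cast_nonneg _)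
    (fun n hn => (Finset.mem_Ioc.1 hn).1) (fun e _ => by
      rw [Finset.sum_const, Nat.Ioc_filter_dvd_card_eq_div, nsmul_eq_mul, mul_one]
      exact Nat.cast_div_le)
  simpa [mul_comm] using this

lemma sum_bigPrimeRatio_pow_div_le (z m : ℕ) (hm : m ≤ z + 2 ∨ m ≤ 4) (N : ℕ) :
    ∑ n ∈ Finset.Ioc 0 N, bigPrimeRatio z n ^ m / n ≤ momentConst * (1 + Real.log N) := by
  rcases Nat.eq_zero_or_pos N with rfl | hN
  · simp [momentConst_pos.le]
  have hlog : 0 ≤ 1 + Real.log N := by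
    have := Real.log_nonneg (show (1 : ℝ) ≤ N by exact_mod_cast hN)
    linarith
  have := sum_mul_bigPrimeRatio_pow_le z m hm (Finset.Ioc 0 N) (fun n => 1 / (n : ℝ))
    (1 + Real.log N) hlog
    (fun n hn => (Finset.mem_Ioc.1 hn).1) (fun e he => by
      have h1 : ∑ n ∈ (Finset.Ioc 0 N).filter (fun n => e ∣ n), 1 / (n : ℝ)
          ≤ ∑ j ∈ Finset.Icc 1 N, (1 / (e : ℝ)) * (j : ℝ)⁻¹ := by
        refine le_trans (le_of_eq ?_) (Finset.sum_le_sum_of_subset_of_nonneg
          (s := ((Finset.Ioc 0 N).filter (fun n => e ∣ n)).image (fun n => n / e)) ?_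
          (fun j _ _ => by positivity))
        · rw [Finset.sum_image]
          · refine Finset.sum_congr rfl fun n hn => ?_
            obtain ⟨c, rfl⟩ := (Finset.mem_filter.1 hn).2
            rw [Nat.mul_div_cancel_left _ he]
            push_cast
            rw [one_div, one_div, mul_inv]
          · intro x hx y hy hxy
            have hx' := (Finset.mem_filter.1 hx).2
            have hy' := (Finset.mem_filter.1 hy).2
            rw [← Nat.div_mul_cancel hx', ← Nat.div_mul_cancel hy']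
            simp only at hxy
            rw [hxy]
        · intro j hj
          obtain ⟨n, hn, rfl⟩ := Finset.mem_image.1 hj
          obtain ⟨hn1, hn2⟩ := Finset.mem_filter.1 hn
          obtain ⟨hpos, hle⟩ := Finset.mem_Ioc.1 hn1
          exact Finset.mem_Icc.2 ⟨Nat.div_pos (Nat.le_of_dvd hpos hn2) he,
            (Nat.div_le_self _ _).trans hle⟩
      refine h1.trans ?_
      rw [← Finset.mul_sum, one_div, mul_comm, ← div_eq_mul_inv]
      refine div_le_div_of_nonneg_right ?_ (Nat.cast_nonneg _)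
      have h := harmonic_le_one_add_log N
      simpa [harmonic_eq_sum_Icc] using h)
  calc _ = ∑ n ∈ Finset.Ioc 0 N, 1 / (n : ℝ) * bigPrimeRatio z n ^ m :=
        Finset.sum_congr rfl fun n _ => by ring
    _ ≤ _ := this.trans (le_of_eq (mul_comm _ _))

lemma sum_bigPrimeRatio_pow_div_sq_le (z m : ℕ) (hm : m ≤ z + 2 ∨ m ≤ 4) (S : Finset ℕ) (D : ℝ)
    (hD : 0 < D) (hS : ∀ n ∈ S, D < n) :
    ∑ n ∈ S, bigPrimeRatio z n ^ m / (n : ℝ) ^ 2 ≤ momentConst * (2 / D) := by
  have := sum_mul_bigPrimeRatio_pow_le z m hm S (fun n => 1 / (n : ℝ) ^ 2) (2 / D) (by positivity)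
    (fun n hn => by
      have := hS n hn
      have : (0 : ℝ) < n := lt_trans hD this
      exact_mod_cast this)
    (fun e he => by
      have he' : (0 : ℝ) < e := by exact_mod_cast he
      set T := (S.filter (fun n => e ∣ n)).image (fun n => n / e)
      have h1 : ∑ n ∈ S.filter (fun n => e ∣ n), 1 / (n : ℝ) ^ 2
          = (1 / (e : ℝ) ^ 2) * ∑ j ∈ T, 1 / (j : ℝ) ^ 2 := by
        rw [Finset.mul_sum, Finset.sum_image]
        · refine Finset.sum_congr rfl fun n hn => ?_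
          obtain ⟨c, rfl⟩ := (Finset.mem_filter.1 hn).2
          rw [Nat.mul_div_cancel_left _ he]
          push_cast
          rw [div_mul_div_comm, mul_pow, one_mul]
        · intro x hx y hy hxy
          have hx' := (Finset.mem_filter.1 hx).2
          have hy' := (Finset.mem_filter.1 hy).2
          rw [← Nat.div_mul_cancel hx', ← Nat.div_mul_cancel hy']
          simp only at hxy
          rw [hxy]
      have hT : ∀ j ∈ T, ⌊D / e⌋₊ < j := by
        intro j hj
        obtain ⟨n, hn, rfl⟩ := Finset.mem_image.1 hj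
        obtain ⟨hn1, c, rfl⟩ := Finset.mem_filter.1 hn
        rw [Nat.mul_div_cancel_left _ he, Nat.floor_lt (by positivity), div_lt_iff₀ he']
        have := hS _ hn1
        push_cast at this
        linarith
      have h2 := sum_inv_sq_gt_le T _ hT
      have h3 : D / e < (⌊D / (e : ℝ)⌋₊ : ℝ) + 1 := Nat.lt_floor_add_one _
      rw [h1]
      calc (1 / (e : ℝ) ^ 2) * ∑ j ∈ T, 1 / (j : ℝ) ^ 2
          ≤ (1 / (e : ℝ) ^ 2) * (2 / (D / e)) := by
            refine mul_le_mul_of_nonneg_left (h2.trans ?_) (by positivity)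
            exact div_le_div_of_nonneg_left (by norm_num) (by positivity) h3.le
        _ = 2 / D / e := by field_simp)
  calc _ = ∑ n ∈ S, 1 / (n : ℝ) ^ 2 * bigPrimeRatio z n ^ m :=
        Finset.sum_congr rfl fun n _ => by ring
    _ ≤ _ := this.trans (le_of_eq (mul_comm _ _))

lemma exists_succ_pow_le (N : ℕ) :
    ∃ C : ℝ, 1 ≤ C ∧ ∀ e : ℕ, ((e : ℝ) + 1) ^ N ≤ C * 2 ^ e := by
  have h := tendsto_pow_const_div_const_pow_of_one_lt N (r := (2 : ℝ)) one_lt_two
  obtain ⟨C, hC⟩ := h.bddAbove_range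
  refine ⟨max 1 (2 * C), le_max_left _ _, fun e => ?_⟩
  have := hC ⟨e + 1, rfl⟩
  simp only [Nat.cast_add, Nat.cast_one] at this
  rw [div_le_iff₀ (by positivity)] at this
  calc ((e : ℝ) + 1) ^ N ≤ C * 2 ^ (e + 1) := this
    _ = 2 * C * 2 ^ e := by ring
    _ ≤ _ := by
      gcongr
      exact le_max_right _ _

/-- Divisor bound: `τ(n) ^ N ≪_N n`. -/
lemma exists_card_divisors_pow_le (N : ℕ) :
    ∃ C : ℝ, 1 ≤ C ∧ ∀ n : ℕ, 0 < n → ((n.divisors.card : ℝ)) ^ N ≤ C * n := by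
  classical
  obtain ⟨C₀, hC₀, hC⟩ := exists_succ_pow_le N
  generalize hM : 2 ^ N = M
  refine ⟨C₀ ^ M, one_le_pow₀ hC₀, fun n hn => ?_⟩
  have hf : ∀ p ∈ n.primeFactors,
      ((n.factorization p : ℝ) + 1) ^ N
        ≤ (if p < M then C₀ else 1) * (p : ℝ) ^ (n.factorization p) := by
    intro p hp
    have hp' := Nat.prime_of_mem_primeFactors hp
    split_ifs with h
    · refine (hC _).trans (mul_le_mul_of_nonneg_left ?_ (by linarith))
      exact pow_le_pow_left₀ (by norm_num) (by exact_mod_cast hp'.two_le) _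
    · rw [one_mul]
      have h1 : ((n.factorization p : ℝ) + 1) ≤ 2 ^ (n.factorization p) := by
        exact_mod_cast Nat.lt_two_pow_self
      refine (pow_le_pow_left₀ (by positivity) h1 N).trans ?_
      rw [← pow_mul, mul_comm, pow_mul]
      refine pow_le_pow_left₀ (by positivity) ?_ _
      rw [← hM] at h
      exact_mod_cast (not_lt.1 h)
  rw [Nat.card_divisors hn.ne']
  push_cast
  rw [← Finset.prod_pow]
  refine (Finset.prod_le_prod (fun p _ => by positivity) hf).trans ?_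
  rw [Finset.prod_mul_distrib]
  have h2 : (∏ p ∈ n.primeFactors, (p : ℝ) ^ n.factorization p) = n := by
    have := Nat.prod_factorization_pow_eq_self hn.ne'
    rw [Finsupp.prod, Nat.support_factorization] at this
    exact_mod_cast this
  rw [h2]
  refine mul_le_mul_of_nonneg_right ?_ (Nat.cast_nonneg _)
  rw [← Finset.prod_filter, Finset.prod_const]
  refine pow_le_pow_right₀ hC₀ ?_
  calc _ ≤ (Finset.range M).card :=
        Finset.card_le_card fun p hp => Finset.mem_range.2 (Finset.mem_filter.1 hp).2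
    _ = M := Finset.card_range M

end Vale.Agent.P028
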