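import Mathlib
import Vale.Agent.P028.Moments

/-!
# Counting nearly coinciding centres
-/

namespace Vale.Agent.P028

open Finset

/-- The integers strictly between two reals. -/
noncomputable def intIoo (x y : ℝ) : Finset ℤ := Finset.Ioo ⌊x⌋ ⌈y⌉

lemma mem_intIoo {x y : ℝ} {k : ℤ} : k ∈ intIoo x y ↔ x < k ∧ (k : ℝ) < y := by
  simp [intIoo, Int.floor_lt, Int.lt_ceil]

lemma card_intIoo {x y : ℝ} (hxy : x ≤ y) :
    |((intIoo x y).card : ℝ) - (y - x)| ≤ 1 := by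
  have h1 := Int.floor_le x
  have h2 := Int.lt_floor_add_one x
  have h3 := Int.le_ceil y
  have h4 := Int.ceil_lt_add_one y
  rw [intIoo, Int.card_Ioo, abs_le]
  rcases le_total (⌈y⌉ - ⌊x⌋ - 1) 0 with h | h
  · rw [Int.toNat_of_nonpos h]
    have : (⌈y⌉ : ℝ) - ⌊x⌋ - 1 ≤ 0 := by exact_mod_cast h
    push_cast
    constructor <;> linarith
  · have e : (((⌈y⌉ - ⌊x⌋ - 1).toNat : ℕ) : ℤ) = ⌈y⌉ - ⌊x⌋ - 1 := Int.toNat_of_nonneg h
    have e' : (((⌈y⌉ - ⌊x⌋ - 1).toNat : ℕ) : ℝ) = (⌈y⌉ : ℝ) - ⌊x⌋ - 1 := by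
      exact_mod_cast e
    rw [e']
    constructor <;> linarith

lemma exists_mod_sol (e : ℕ) (he : 0 < e) (B : ℤ) (hB : IsCoprime B (e : ℤ)) (A : ℤ) :
    ∃ a₀ : ℤ, 0 ≤ a₀ ∧ a₀ < e ∧ ∀ a : ℤ, (e : ℤ) ∣ a * B + A ↔ (e : ℤ) ∣ a - a₀ := by
  have he' : (0 : ℤ) < e := by exact_mod_cast he
  obtain ⟨x, y, hxy⟩ := hB
  refine ⟨(-A * x) % e, Int.emod_nonneg _ he'.ne', Int.emod_lt_of_pos _ he', fun a => ?_⟩
  set c := (-A * x) % (e : ℤ) with hc
  have hdiv : (e : ℤ) ∣ (-A * x) - c := Int.dvd_self_sub_emod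
  have key : (e : ℤ) ∣ c * B + A := by
    have h1 : c * B + A = -((-A * x - c) * B) + A * y * e := by
      have : x * B + y * e = 1 := hxy
      linear_combination (-A) * this
    rw [h1]
    exact (hdiv.mul_right B).neg_right.add (dvd_mul_left _ _)
  have hco : IsCoprime (e : ℤ) B := IsCoprime.symm ⟨x, y, hxy⟩
  constructor
  · intro h
    apply hco.dvd_of_dvd_mul_right
    have : (a - c) * B = (a * B + A) - (c * B + A) := by ring
    rw [this]; exact dvd_sub h key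
  · intro h
    have : a * B + A = (a - c) * B + (c * B + A) := by ring
    rw [this]; exact (h.mul_right B).add key

/-- Exact count of a residue class in a full block of periods. -/
lemma ap_card (g u : ℕ) (hu : 0 < u) (c : ℤ) :
    ((Finset.Ico (0 : ℤ) ((g : ℤ) * u)).filter (fun a => (u : ℤ) ∣ a - c)).card = g := by
  have h := Int.Ico_filter_modEq_card 0 ((g : ℤ) * u) (r := (u : ℤ)) (by exact_mod_cast hu) c
  have hu' : (u : ℚ) ≠ 0 := by exact_mod_cast hu.ne'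
  have e1 : (((g : ℤ) * u : ℤ) : ℚ) - (c : ℚ) = (-(c : ℚ)) + (g : ℚ) * u := by push_cast; ring
  have e2 : ((-(c : ℚ)) + (g : ℚ) * u) / ((u : ℤ) : ℚ) = -(c : ℚ) / u + ((g : ℤ) : ℚ) := by
    push_cast; field_simp
  rw [e1, e2, Int.ceil_add_intCast] at h
  simp at h
  have : ((Finset.Ico (0 : ℤ) ((g : ℤ) * u)).filter (fun a => (u : ℤ) ∣ a - c))
      = (Finset.Ico (0 : ℤ) ((g : ℤ) * u)).filter (fun a => a ≡ c [ZMOD u]) := by
    refine Finset.filter_congr fun a _ => ?_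
    rw [Int.modEq_comm, Int.modEq_iff_dvd]
  rw [this]
  omega

/-- Count of a residue class in a real interval. -/
lemma card_intIoo_dvd {x y : ℝ} (hxy : x ≤ y) (e : ℕ) (he : 0 < e) (c : ℤ) :
    |(((intIoo x y).filter (fun a => (e : ℤ) ∣ a - c)).card : ℝ) - (y - x) / e| ≤ 1 := by
  have he' : (0 : ℝ) < e := by exact_mod_cast he
  have hinj : Function.Injective (fun k : ℤ => c + (e : ℤ) * k) := by
    intro k k' h
    have : (e : ℤ) * k = (e : ℤ) * k' := by linarith [h]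
    exact mul_left_cancel₀ (by exact_mod_cast he.ne') this
  have heq : (intIoo x y).filter (fun a => (e : ℤ) ∣ a - c)
      = (intIoo ((x - c) / e) ((y - c) / e)).image (fun k => c + (e : ℤ) * k) := by
    ext a
    simp only [Finset.mem_filter, mem_intIoo, Finset.mem_image]
    constructor
    · rintro ⟨⟨h1, h2⟩, k, hk⟩
      have hk' : (a : ℝ) - c = e * k := by exact_mod_cast hk
      refine ⟨k, ⟨?_, ?_⟩, by linarith⟩
      · rw [div_lt_iff₀ he']; nlinarith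
      · rw [lt_div_iff₀ he']; nlinarith
    · rintro ⟨k, ⟨h1, h2⟩, rfl⟩
      rw [div_lt_iff₀ he'] at h1
      rw [lt_div_iff₀ he'] at h2
      push_cast
      exact ⟨⟨by linarith, by linarith⟩, k, by ring⟩
  rw [heq, Finset.card_image_of_injective _ hinj]
  have := card_intIoo (x := (x - c) / e) (y := (y - c) / e)
    (div_le_div_of_nonneg_right (by linarith) he'.le)
  convert this using 3
  ring

/-- Pairs of centres at distance less than `η`, one period of the first family. -/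
noncomputable def pairSet (q r : ℕ) (θ θ' η : ℝ) : Finset (ℤ × ℤ) :=
  ((Finset.Ico (0 : ℤ) q) ×ˢ
      (Finset.Icc ⌊(r : ℝ) * (θ / q - η) - θ'⌋ ⌈(r : ℝ) * (1 + θ / q + η) - θ'⌉)).filter
    (fun p => |((p.1 : ℝ) + θ) / q - ((p.2 : ℝ) + θ') / r| < η)

lemma mem_pairSet {q r : ℕ} (hq : 0 < q) (hr : 0 < r) {θ θ' η : ℝ} {p : ℤ × ℤ} :
    p ∈ pairSet q r θ θ' η ↔
      (0 ≤ p.1 ∧ p.1 < q) ∧ |((p.1 : ℝ) + θ) / q - ((p.2 : ℝ) + θ') / r| < η := by
  rw [pairSet, Finset.mem_filter, Finset.mem_product, Finset.mem_Ico]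
  constructor
  · rintro ⟨⟨h, _⟩, h'⟩
    exact ⟨h, h'⟩
  · rintro ⟨h, h'⟩
    refine ⟨⟨h, ?_⟩, h'⟩
    have hq' : (0 : ℝ) < q := by exact_mod_cast hq
    have hr' : (0 : ℝ) < r := by exact_mod_cast hr
    have ha0 : (0 : ℝ) ≤ p.1 := by exact_mod_cast h.1
    have ha1 : (p.1 : ℝ) ≤ q := by exact_mod_cast h.2.le
    obtain ⟨h1, h2⟩ := abs_lt.1 h'
    have e1 : ((p.1 : ℝ) + θ) / q = (p.1 : ℝ) / q + θ / q := add_div _ _ _
    have e3 : (0 : ℝ) ≤ (p.1 : ℝ) / q := by positivity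
    have e4 : (p.1 : ℝ) / q ≤ 1 := (div_le_one hq').2 ha1
    have e2 : ((p.2 : ℝ) + θ') = r * (((p.2 : ℝ) + θ') / r) := by field_simp
    rw [Finset.mem_Icc]
    constructor
    · rw [← @Int.cast_le ℝ]
      refine (Int.floor_le _).trans ?_
      have : (r : ℝ) * (θ / q - η) ≤ r * (((p.2 : ℝ) + θ') / r) := by
        refine mul_le_mul_of_nonneg_left ?_ hr'.le
        linarith
      linarith
    · rw [← @Int.cast_le ℝ]
      refine le_trans ?_ (Int.le_ceil _)
      have : (r : ℝ) * (((p.2 : ℝ) + θ') / r) ≤ r * (1 + θ / q + η) := by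
        refine mul_le_mul_of_nonneg_left ?_ hr'.le
        linarith
      linarith

/-- The fibres of `(a, b) ↦ v a - u b` over one period. -/
lemma fibre_card (g u v : ℕ) (hu : 0 < u) (huv : Nat.Coprime u v) (k : ℤ) :
    ((Finset.Ico (0 : ℤ) ((g : ℤ) * u)).filter (fun a => (u : ℤ) ∣ (v : ℤ) * a - k)).card = g := by
  have hco : IsCoprime (v : ℤ) (u : ℤ) := Int.isCoprime_iff_gcd_eq_one.2 (by
    simpa [Int.gcd_natCast_natCast] using huv.symm)
  obtain ⟨a₀, _, _, h⟩ := exists_mod_sol u hu v hco (-k)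
  conv_rhs => rw [← ap_card g u hu a₀]
  congr 1
  refine Finset.filter_congr fun a _ => ?_
  rw [← h, mul_comm, sub_eq_add_neg]

lemma card_fibre_le (q g u v : ℕ) (hq : q = g * u) (hu : 0 < u) (huv : Nat.Coprime u v)
    (k : ℤ) (S : Finset (ℤ × ℤ))
    (h1 : ∀ p ∈ S, 0 ≤ p.1 ∧ p.1 < q) (h2 : ∀ p ∈ S, (v : ℤ) * p.1 - (u : ℤ) * p.2 = k) :
    S.card ≤ g := by
  refine le_trans ?_ (fibre_card g u v hu huv k).le
  refine Finset.card_le_card_of_injOn (fun p => p.1) (fun p hp => ?_) (fun p hp p' hp' he => ?_)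
  · simp only [Finset.coe_filter, Set.mem_ofPred_eq, Finset.mem_Ico]
    refine ⟨⟨(h1 p hp).1, ?_⟩, ⟨p.2, by linarith [h2 p hp]⟩⟩
    have := (h1 p hp).2
    rw [hq] at this
    push_cast at this
    exact this
  · simp only at he
    have e1 := h2 p hp
    have e2 := h2 p' hp'
    rw [he] at e1
    have : (u : ℤ) * p.2 = (u : ℤ) * p'.2 := by linarith
    exact Prod.ext he (mul_left_cancel₀ (by exact_mod_cast hu.ne') this)

/-- The basic count: main term `2 η q r`, error `gcd`. -/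
lemma card_pairSet (q r : ℕ) (hq : 0 < q) (hr : 0 < r) (θ θ' η : ℝ) (hη : 0 ≤ η) :
    |((pairSet q r θ θ' η).card : ℝ) - 2 * η * q * r| ≤ Nat.gcd q r := by
  classical
  obtain ⟨u, v, huv, hqu, hrv⟩ := Nat.exists_coprime q r
  set g := Nat.gcd q r with hg
  have hg0 : 0 < g := Nat.gcd_pos_of_pos_left _ hq
  have hu : 0 < u := Nat.pos_of_ne_zero fun h => by rw [h, zero_mul] at hqu; omega
  have hgR : (0 : ℝ) < g := by exact_mod_cast hg0
  have hqR : (0 : ℝ) < q := by exact_mod_cast hq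
  have hrR : (0 : ℝ) < r := by exact_mod_cast hr
  have hq' : (q : ℝ) = g * u := by rw [hqu]; push_cast; ring
  have hr' : (r : ℝ) = g * v := by rw [hrv]; push_cast; ring
  set c : ℝ := r * θ - q * θ' with hc
  set KS := intIoo ((-(η * q * r) - c) / g) ((η * q * r - c) / g) with hKS
  have hcond : ∀ a b : ℤ, |((a : ℝ) + θ) / q - ((b : ℝ) + θ') / r| < η ↔
      ((v : ℤ) * a - (u : ℤ) * b) ∈ KS := by
    intro a b
    have e : ((a : ℝ) + θ) / q - ((b : ℝ) + θ') / r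
        = ((g : ℝ) * (((v : ℤ) * a - (u : ℤ) * b : ℤ) : ℝ) + c) / (q * r) := by
      rw [hc]
      field_simp
      push_cast
      rw [hq', hr']
      ring
    rw [e, hKS, mem_intIoo, abs_div, abs_of_pos (by positivity : (0 : ℝ) < q * r),
      div_lt_iff₀ (by positivity), abs_lt, div_lt_iff₀ hgR, lt_div_iff₀ hgR]
    constructor <;> intro h <;> constructor <;> linarith [h.1, h.2]
  have hmaps : ((pairSet q r θ θ' η : Finset (ℤ × ℤ)) : Set (ℤ × ℤ)).MapsTo
      (fun p => (v : ℤ) * p.1 - (u : ℤ) * p.2) (KS : Set ℤ) := by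
    intro p hp
    exact (hcond p.1 p.2).1 ((mem_pairSet hq hr).1 hp).2
  have hfib : ∀ k ∈ KS, ((pairSet q r θ θ' η).filter
      (fun p => (v : ℤ) * p.1 - (u : ℤ) * p.2 = k)).card = g := by
    intro k hk
    refine le_antisymm (card_fibre_le q g u v (by rw [hqu, mul_comm]) hu huv k _
      (fun p hp => ((mem_pairSet hq hr).1 (Finset.mem_filter.1 hp).1).1)
      (fun p hp => (Finset.mem_filter.1 hp).2)) ?_
    refine le_trans (fibre_card g u v hu huv k).ge
      (Finset.card_le_card_of_injOn (fun a => (a, ((v : ℤ) * a - k) / (u : ℤ)))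
        (fun a ha => ?_) (fun a _ a' _ he => congrArg Prod.fst he))
    simp only [Finset.coe_filter, Set.mem_ofPred_eq, Finset.mem_Ico] at ha ⊢
    obtain ⟨⟨ha0, ha1⟩, hd⟩ := ha
    have e : (v : ℤ) * a - (u : ℤ) * (((v : ℤ) * a - k) / (u : ℤ)) = k := by
      rw [Int.mul_ediv_cancel' hd]; ring
    refine ⟨(mem_pairSet hq hr).2 ⟨⟨ha0, ?_⟩, (hcond _ _).2 (by simp only [e]; exact hk)⟩, e⟩
    simp only
    rw [hqu]
    push_cast
    linarith
  have hcard : (pairSet q r θ θ' η).card = g * KS.card := by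
    rw [Finset.card_eq_sum_card_fiberwise hmaps, Finset.sum_congr rfl hfib, Finset.sum_const,
      smul_eq_mul, mul_comm]
  have hlen : (η * q * r - c) / g - (-(η * q * r) - c) / g = 2 * η * q * r / g := by ring
  have h0 : 0 ≤ η * q * r := by positivity
  have hb := card_intIoo (x := (-(η * q * r) - c) / g) (y := (η * q * r - c) / g)
    (div_le_div_of_nonneg_right (by linarith) hgR.le)
  rw [hlen, ← hKS] at hb
  rw [hcard]
  have : ((g * KS.card : ℕ) : ℝ) - 2 * η * q * r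
      = (g : ℝ) * ((KS.card : ℝ) - 2 * η * q * r / g) := by
    push_cast; field_simp
  rw [this, abs_mul, abs_of_pos hgR]
  exact mul_le_of_le_one_right hgR.le hb

/-- `a` avoids `a B + A ≡ 0 (mod p)` for all `p ∈ P`. -/
def Avoid (P : Finset ℕ) (A : ℤ) (B : ℕ) (a : ℤ) : Prop :=
  ∀ p ∈ P, ¬ (p : ℤ) ∣ a * B + A

instance (P : Finset ℕ) (A : ℤ) (B : ℕ) : DecidablePred (Avoid P A B) := fun a => by
  unfold Avoid; infer_instance

lemma avoid_indicator (P : Finset ℕ) (hP : ∀ p ∈ P, p.Prime) (A : ℤ) (B : ℕ) (a : ℤ) :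
    (if Avoid P A B a then (1 : ℝ) else 0)
      = ∑ T ∈ P.powerset,
          (-1) ^ T.card * (if ((∏ p ∈ T, p : ℕ) : ℤ) ∣ a * B + A then (1 : ℝ) else 0) := by
  have h1 : (if Avoid P A B a then (1 : ℝ) else 0)
      = ∏ p ∈ P, (1 + -(if (p : ℤ) ∣ a * B + A then (1 : ℝ) else 0)) := by
    split_ifs with h
    · rw [Finset.prod_eq_one]
      intro p hp
      rw [if_neg (h p hp)]; ring
    · unfold Avoid at h
      push Not at h
      obtain ⟨p, hp, hd⟩ := h
      rw [Finset.prod_eq_zero hp]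
      rw [if_pos hd]; ring
  rw [h1, Finset.prod_one_add]
  refine Finset.sum_congr rfl fun T hT => ?_
  rw [Finset.prod_neg]
  congr 1
  rw [Finset.prod_boole]
  refine if_congr ?_ rfl rfl
  exact (prod_dvd_iff_forall T (fun p hp => hP p (Finset.mem_powerset.1 hT hp)) _).symm

lemma prod_one_sub_inv (P : Finset ℕ) :
    ∏ p ∈ P, (1 - 1 / (p : ℝ))
      = ∑ T ∈ P.powerset, (-1) ^ T.card / ((∏ p ∈ T, p : ℕ) : ℝ) := by
  simp only [sub_eq_add_neg]
  rw [Finset.prod_one_add]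
  refine Finset.sum_congr rfl fun T _ => ?_
  rw [Finset.prod_neg, div_eq_mul_inv]
  push_cast
  simp [one_div, Finset.prod_inv_distrib]

lemma isCoprime_prod (T : Finset ℕ) (hT : ∀ p ∈ T, p.Prime) (B : ℕ) (hB : ∀ p ∈ T, ¬ p ∣ B) :
    IsCoprime (B : ℤ) ((∏ p ∈ T, p : ℕ) : ℤ) := by
  push_cast
  refine IsCoprime.prod_right fun p hp => ?_
  rw [Int.isCoprime_iff_gcd_eq_one, Int.gcd_natCast_natCast]
  exact ((Nat.Prime.coprime_iff_not_dvd (hT p hp)).2 (hB p hp)).symm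

/-- Legendre's count in an interval. -/
lemma card_avoid (P : Finset ℕ) (hP : ∀ p ∈ P, p.Prime) (A : ℤ) (B : ℕ)
    (hB : ∀ p ∈ P, ¬ p ∣ B) {x y : ℝ} (hxy : x ≤ y) :
    |(((intIoo x y).filter (Avoid P A B)).card : ℝ) - (y - x) * ∏ p ∈ P, (1 - 1 / (p : ℝ))|
      ≤ 2 ^ P.card := by
  classical
  have e : (((intIoo x y).filter (Avoid P A B)).card : ℝ) =
      ∑ T ∈ P.powerset, (-1) ^ T.card *
        (((intIoo x y).filter (fun a => ((∏ p ∈ T, p : ℕ) : ℤ) ∣ a * B + A)).card : ℝ) := by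
    rw [Finset.natCast_card_filter, Finset.sum_congr rfl (fun a _ => avoid_indicator P hP A B a),
      Finset.sum_comm]
    refine Finset.sum_congr rfl fun T _ => ?_
    rw [Finset.natCast_card_filter, Finset.mul_sum]
  rw [e, prod_one_sub_inv, Finset.mul_sum, ← Finset.sum_sub_distrib]
  refine (Finset.abs_sum_le_sum_abs _ _).trans ?_
  calc ∑ T ∈ P.powerset, _ ≤ ∑ _T ∈ P.powerset, (1 : ℝ) := by
        refine Finset.sum_le_sum fun T hT => ?_
        have hT' := Finset.mem_powerset.1 hT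
        set e := ∏ p ∈ T, p with he
        have he0 : 0 < e := Finset.prod_pos fun p hp => (hP p (hT' hp)).pos
        obtain ⟨a₀, _, _, ha⟩ := exists_mod_sol e he0 B
          (isCoprime_prod T (fun p hp => hP p (hT' hp)) B (fun p hp => hB p (hT' hp))) A
        have : (intIoo x y).filter (fun a => (e : ℤ) ∣ a * B + A)
            = (intIoo x y).filter (fun a => (e : ℤ) ∣ a - a₀) :=
          Finset.filter_congr fun a _ => ha a
        rw [this, show ∀ s t : ℝ, (-1 : ℝ) ^ T.card * s - t * ((-1) ^ T.card / (e : ℝ))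
            = (-1) ^ T.card * (s - t / e) from fun s t => by ring, abs_mul, abs_pow, abs_neg,
          abs_one, one_pow, one_mul]
        exact card_intIoo_dvd hxy e he0 a₀
    _ = 2 ^ P.card := by simp

/-- Congruence sub-count of `pairSet`. -/
lemma card_pairSet_dvd (q r e f : ℕ) (hq : 0 < q) (hr : 0 < r) (he : e ∣ q) (hf : f ∣ r)
    (B B' : ℕ) (A A' : ℤ) (hB : IsCoprime (B : ℤ) (e : ℤ)) (hB' : IsCoprime (B' : ℤ) (f : ℤ))
    (θ θ' η : ℝ) (hη : 0 ≤ η) :
    |(((pairSet q r θ θ' η).filter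
        (fun p => (e : ℤ) ∣ p.1 * B + A ∧ (f : ℤ) ∣ p.2 * B' + A')).card : ℝ)
      - 2 * η * q * r / (e * f)| ≤ Nat.gcd q r := by
  classical
  obtain ⟨q', hq'⟩ := he
  obtain ⟨r', hr'⟩ := hf
  have he0 : 0 < e := Nat.pos_of_ne_zero fun h => by rw [h, zero_mul] at hq'; omega
  have hf0 : 0 < f := Nat.pos_of_ne_zero fun h => by rw [h, zero_mul] at hr'; omega
  have hq'0 : 0 < q' := Nat.pos_of_ne_zero fun h => by rw [h, mul_zero] at hq'; omega
  have hr'0 : 0 < r' := Nat.pos_of_ne_zero fun h => by rw [h, mul_zero] at hr'; omega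
  obtain ⟨a₀, ha0, ha1, ha⟩ := exists_mod_sol e he0 B hB A
  obtain ⟨b₀, _, _, hb⟩ := exists_mod_sol f hf0 B' hB' A'
  have heR : (0 : ℝ) < e := by exact_mod_cast he0
  have hfR : (0 : ℝ) < f := by exact_mod_cast hf0
  have hq'R : (0 : ℝ) < q' := by exact_mod_cast hq'0
  have hr'R : (0 : ℝ) < r' := by exact_mod_cast hr'0
  set θ₁ : ℝ := (θ + a₀) / e
  set θ₂ : ℝ := (θ' + b₀) / f
  have hdist : ∀ a' b' : ℤ, (((a₀ + e * a' : ℤ) : ℝ) + θ) / q - (((b₀ + f * b' : ℤ) : ℝ) + θ') / r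
      = ((a' : ℝ) + θ₁) / q' - ((b' : ℝ) + θ₂) / r' := by
    intro a' b'
    rw [hq', hr']
    simp only [θ₁, θ₂]
    push_cast
    field_simp
    ring
  have hinj : Function.Injective (fun p : ℤ × ℤ => (a₀ + (e : ℤ) * p.1, b₀ + (f : ℤ) * p.2)) := by
    intro p p' h
    simp only [Prod.mk.injEq] at h
    exact Prod.ext (mul_left_cancel₀ (Int.natCast_ne_zero.2 he0.ne') (add_left_cancel h.1))
      (mul_left_cancel₀ (Int.natCast_ne_zero.2 hf0.ne') (add_left_cancel h.2))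
  have heq : (pairSet q r θ θ' η).filter
        (fun p => (e : ℤ) ∣ p.1 * B + A ∧ (f : ℤ) ∣ p.2 * B' + A')
      = (pairSet q' r' θ₁ θ₂ η).image
          (fun p : ℤ × ℤ => (a₀ + (e : ℤ) * p.1, b₀ + (f : ℤ) * p.2)) := by
    ext p
    simp only [Finset.mem_filter, Finset.mem_image, mem_pairSet hq hr, mem_pairSet hq'0 hr'0]
    have he0' : (0 : ℤ) < e := by exact_mod_cast he0
    have hqe : (q : ℤ) = e * q' := by rw [hq']; push_cast; ring
    constructor
    · rintro ⟨⟨⟨h1, h2⟩, h3⟩, h4, h5⟩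
      obtain ⟨a', ha'⟩ := (ha _).1 h4
      obtain ⟨b', hb'⟩ := (hb _).1 h5
      have e1 : p.1 = a₀ + e * a' := by linarith
      have e2 : p.2 = b₀ + f * b' := by linarith
      refine ⟨(a', b'), ⟨⟨?_, ?_⟩, ?_⟩, Prod.ext e1.symm e2.symm⟩
      · by_contra hneg
        simp only [not_le] at hneg
        have : (e : ℤ) * a' ≤ e * (-1) := mul_le_mul_of_nonneg_left (by omega) he0'.le
        omega
      · by_contra hge
        simp only [not_lt] at hge
        have : (e : ℤ) * q' ≤ e * a' := mul_le_mul_of_nonneg_left hge he0'.le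
        omega
      · simp only
        rw [← hdist, ← e1, ← e2]; exact h3
    · rintro ⟨⟨a', b'⟩, ⟨⟨h1, h2⟩, h3⟩, rfl⟩
      simp only at h1 h2 h3 ⊢
      refine ⟨⟨⟨by positivity, ?_⟩, by rw [hdist]; exact h3⟩, (ha _).2 ⟨a', by ring⟩,
        (hb _).2 ⟨b', by ring⟩⟩
      have : (e : ℤ) * (a' + 1) ≤ e * q' := mul_le_mul_of_nonneg_left (by omega) he0'.le
      linarith
  rw [heq, Finset.card_image_of_injective _ hinj]
  have h := card_pairSet q' r' hq'0 hr'0 θ₁ θ₂ η hη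
  have e3 : 2 * η * q * r / ((e : ℝ) * f) = 2 * η * q' * r' := by
    rw [hq', hr']; push_cast; field_simp
  rw [e3]
  refine h.trans ?_
  exact_mod_cast Nat.le_of_dvd (Nat.gcd_pos_of_pos_left _ hq)
    (Nat.dvd_gcd ((Nat.gcd_dvd_left q' r').trans (hq' ▸ dvd_mul_left q' e))
      ((Nat.gcd_dvd_right q' r').trans (hr' ▸ dvd_mul_left r' f)))

/-- The sieved count of pairs. -/
lemma card_pairSet_avoid (q r : ℕ) (hq : 0 < q) (hr : 0 < r) (P P' : Finset ℕ)
    (hP : P ⊆ q.primeFactors) (hP' : P' ⊆ r.primeFactors)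
    (B B' : ℕ) (A A' : ℤ) (hB : ∀ p ∈ P, ¬ p ∣ B) (hB' : ∀ p ∈ P', ¬ p ∣ B')
    (θ θ' η : ℝ) (hη : 0 ≤ η) :
    (((pairSet q r θ θ' η).filter (fun p => Avoid P A B p.1 ∧ Avoid P' A' B' p.2)).card : ℝ)
      ≤ 2 * η * q * r * (∏ p ∈ P, (1 - 1 / (p : ℝ))) * (∏ p ∈ P', (1 - 1 / (p : ℝ)))
        + 2 ^ P.card * 2 ^ P'.card * Nat.gcd q r := by
  classical
  have hPp : ∀ p ∈ P, p.Prime := fun p hp => Nat.prime_of_mem_primeFactors (hP hp)
  have hPp' : ∀ p ∈ P', p.Prime := fun p hp => Nat.prime_of_mem_primeFactors (hP' hp)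
  set S := pairSet q r θ θ' η with hS
  have e : ((S.filter (fun p => Avoid P A B p.1 ∧ Avoid P' A' B' p.2)).card : ℝ) =
      ∑ T ∈ P.powerset, ∑ T' ∈ P'.powerset, ((-1) ^ T.card * (-1) ^ T'.card) *
        ((S.filter (fun p => ((∏ l ∈ T, l : ℕ) : ℤ) ∣ p.1 * B + A ∧
          ((∏ l ∈ T', l : ℕ) : ℤ) ∣ p.2 * B' + A')).card : ℝ) := by
    rw [Finset.natCast_card_filter]
    have : ∀ p ∈ S, (if Avoid P A B p.1 ∧ Avoid P' A' B' p.2 then (1 : ℝ) else 0)
        = ∑ T ∈ P.powerset, ∑ T' ∈ P'.powerset, ((-1) ^ T.card * (-1) ^ T'.card) *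
            (if ((∏ l ∈ T, l : ℕ) : ℤ) ∣ p.1 * B + A ∧
                ((∏ l ∈ T', l : ℕ) : ℤ) ∣ p.2 * B' + A' then (1 : ℝ) else 0) := by
      intro p _
      have := congrArg₂ (· * ·) (avoid_indicator P hPp A B p.1) (avoid_indicator P' hPp' A' B' p.2)
      simp only [Finset.sum_mul_sum, ite_zero_mul_ite_zero, mul_one] at this
      rw [this]
      refine Finset.sum_congr rfl fun T _ => Finset.sum_congr rfl fun T' _ => ?_
      split_ifs <;> simp_all
    rw [Finset.sum_congr rfl this, Finset.sum_comm]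
    refine Finset.sum_congr rfl fun T _ => ?_
    rw [Finset.sum_comm]
    refine Finset.sum_congr rfl fun T' _ => ?_
    rw [Finset.natCast_card_filter, Finset.mul_sum]
  have main : 2 * η * q * r * (∏ p ∈ P, (1 - 1 / (p : ℝ))) * (∏ p ∈ P', (1 - 1 / (p : ℝ))) =
      ∑ T ∈ P.powerset, ∑ T' ∈ P'.powerset, ((-1) ^ T.card * (-1) ^ T'.card) *
        (2 * η * q * r / (((∏ l ∈ T, l : ℕ) : ℝ) * ((∏ l ∈ T', l : ℕ) : ℝ))) := by
    rw [prod_one_sub_inv, prod_one_sub_inv, mul_assoc, Finset.sum_mul_sum, Finset.mul_sum]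
    refine Finset.sum_congr rfl fun T _ => ?_
    rw [Finset.mul_sum]
    refine Finset.sum_congr rfl fun T' _ => ?_
    ring
  rw [e, main]
  have hbound : ∀ T ∈ P.powerset, ∀ T' ∈ P'.powerset, ((-1 : ℝ) ^ T.card * (-1) ^ T'.card) *
        ((S.filter (fun p => ((∏ l ∈ T, l : ℕ) : ℤ) ∣ p.1 * B + A ∧
          ((∏ l ∈ T', l : ℕ) : ℤ) ∣ p.2 * B' + A')).card : ℝ)
      ≤ ((-1) ^ T.card * (-1) ^ T'.card) *
          (2 * η * q * r / (((∏ l ∈ T, l : ℕ) : ℝ) * ((∏ l ∈ T', l : ℕ) : ℝ)))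
        + Nat.gcd q r := by
    intro T hT T' hT'
    have hT := Finset.mem_powerset.1 hT
    have hT' := Finset.mem_powerset.1 hT'
    have hd : (∏ l ∈ T, l) ∣ q :=
      (Finset.prod_dvd_prod_of_subset _ _ _ (hT.trans hP)).trans q.prod_primeFactors_dvd
    have hd' : (∏ l ∈ T', l) ∣ r :=
      (Finset.prod_dvd_prod_of_subset _ _ _ (hT'.trans hP')).trans r.prod_primeFactors_dvd
    have h := card_pairSet_dvd q r _ _ hq hr hd hd' B B' A A'
      (isCoprime_prod T (fun p hp => hPp p (hT hp)) B (fun p hp => hB p (hT hp)))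
      (isCoprime_prod T' (fun p hp => hPp' p (hT' hp)) B' (fun p hp => hB' p (hT' hp))) θ θ' η hη
    rw [← hS] at h
    obtain ⟨h1, h2⟩ := abs_le.1 h
    rcases neg_one_pow_eq_or ℝ T.card with hs | hs <;>
      rcases neg_one_pow_eq_or ℝ T'.card with hs' | hs' <;> rw [hs, hs'] <;> linarith
  refine (Finset.sum_le_sum fun T hT => Finset.sum_le_sum (hbound T hT)).trans (le_of_eq ?_)
  simp only [Finset.sum_add_distrib, Finset.sum_const, Finset.card_powerset, nsmul_eq_mul]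
  push_cast
  ring

end Vale.Agent.P028
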