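import Mathlib
import Vale.Agent.P028.Count

/-!
# The shifted reduced residues and the associated sets
-/

namespace Vale.Agent.P028

open Finset

/-- A rational approximation of `γ` attached to the dyadic level `k`. -/
noncomputable def approx (γ : ℝ) (k : ℕ) : ℚ :=
  Classical.choose (Real.exists_rat_abs_sub_le_and_den_le γ (n := 2 ^ ((k + 1) / 2))
    (pow_pos two_pos _))

lemma approx_spec (γ : ℝ) (k : ℕ) :
    |((approx γ k).den : ℝ) * γ - (approx γ k).num| ≤ 1 / (((2 : ℝ) ^ ((k + 1) / 2)) + 1) ∧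
      (approx γ k).den ≤ 2 ^ ((k + 1) / 2) := by
  have h := Classical.choose_spec (Real.exists_rat_abs_sub_le_and_den_le γ
    (n := 2 ^ ((k + 1) / 2)) (pow_pos two_pos _))
  unfold approx
  generalize Classical.choose (Real.exists_rat_abs_sub_le_and_den_le γ
    (n := 2 ^ ((k + 1) / 2)) (pow_pos two_pos _)) = d at h ⊢
  obtain ⟨h1, h2⟩ := h
  refine ⟨?_, h2⟩
  have hd : (0 : ℝ) < d.den := by exact_mod_cast d.pos
  have e : (d.den : ℝ) * γ - d.num = (d.den : ℝ) * (γ - (d : ℝ)) := by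
    rw [Rat.cast_def]; field_simp
  rw [e, abs_mul, abs_of_pos hd]
  refine (mul_le_mul_of_nonneg_left h1 hd.le).trans (le_of_eq ?_)
  push_cast
  field_simp

/-- Dyadic level. -/
def level (q : ℕ) : ℕ := Nat.log 2 q

/-- Numerator attached to `q`. -/
noncomputable def numA (γ : ℝ) (q : ℕ) : ℤ := (approx γ (level q)).num

/-- Denominator attached to `q`. -/
noncomputable def denB (γ : ℝ) (q : ℕ) : ℕ := (approx γ (level q)).den

lemma denB_pos (γ : ℝ) (q : ℕ) : 0 < denB γ q := (approx γ (level q)).pos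

lemma isCoprime_numA_denB (γ : ℝ) (q : ℕ) : IsCoprime (numA γ q) (denB γ q : ℤ) :=
  Rat.isCoprime_num_den _

/-- The primes of `q` which are used in the exclusion. -/
noncomputable def exclPrimes (γ : ℝ) (q : ℕ) : Finset ℕ :=
  q.primeFactors.filter (fun p => ¬ p ∣ denB γ q)

/-- The admissible numerators. -/
def Keep (γ : ℝ) (q : ℕ) (a : ℤ) : Prop := Avoid (exclPrimes γ q) (numA γ q) (denB γ q) a

/-- The restricted approximation set. -/
def approxSet (γ : ℝ) (δ : ℕ → ℝ) (q : ℕ) : Set ℝ :=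
  {x | ∃ a : ℤ, Keep γ q a ∧ |x - ((a : ℝ) + γ) / q| < δ q}

/-- The proportion of admissible numerators. -/
noncomputable def propKeep (γ : ℝ) (q : ℕ) : ℝ := ∏ p ∈ exclPrimes γ q, (1 - 1 / (p : ℝ))

/-- The weight of `q`. -/
noncomputable def mass (γ : ℝ) (δ : ℕ → ℝ) (q : ℕ) : ℝ := (q : ℝ) * δ q * propKeep γ q

lemma keep_iff_coprime {γ : ℝ} {q : ℕ} (hq : 0 < q) {a : ℤ} (h : Keep γ q a) :
    IsCoprime (a * (denB γ q : ℤ) + numA γ q) (q : ℤ) := by
  rw [Int.isCoprime_iff_gcd_eq_one]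
  by_contra hne
  obtain ⟨p, hp, hpd⟩ := Nat.exists_prime_and_dvd hne
  have h1 : (p : ℤ) ∣ a * (denB γ q : ℤ) + numA γ q :=
    (Int.natCast_dvd_natCast.2 hpd).trans (Int.gcd_dvd_left _ _)
  have h2 : (p : ℤ) ∣ (q : ℤ) := (Int.natCast_dvd_natCast.2 hpd).trans (Int.gcd_dvd_right _ _)
  by_cases hB : p ∣ denB γ q
  · have h3 : (p : ℤ) ∣ numA γ q := by
      have := dvd_sub h1 ((Int.natCast_dvd_natCast.2 hB).mul_left a)
      simpa using this
    have := (isCoprime_numA_denB γ q).isUnit_of_dvd' h3 (Int.natCast_dvd_natCast.2 hB)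
    exact hp.one_lt.ne' (by simpa [Int.isUnit_iff_natAbs_eq] using this)
  · exact h p (Finset.mem_filter.2
      ⟨Nat.mem_primeFactors.2 ⟨hp, Int.natCast_dvd_natCast.1 h2, hq.ne'⟩, hB⟩) h1

lemma propKeep_pos (γ : ℝ) (q : ℕ) : 0 < propKeep γ q := by
  refine Finset.prod_pos fun p hp => ?_
  have := (Nat.prime_of_mem_primeFactors (Finset.mem_of_mem_filter _ hp)).two_le
  have : (2 : ℝ) ≤ p := by exact_mod_cast this
  rw [sub_pos, div_lt_one (by linarith)]
  linarith

lemma propKeep_le_one (γ : ℝ) (q : ℕ) : propKeep γ q ≤ 1 := by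
  refine Finset.prod_le_one (fun p hp => ?_) (fun p _ => by simp)
  have := (Nat.prime_of_mem_primeFactors (Finset.mem_of_mem_filter _ hp)).one_le
  rw [sub_nonneg, div_le_one (by exact_mod_cast this)]
  exact_mod_cast this

lemma totient_div_le_propKeep (γ : ℝ) (q : ℕ) : (Nat.totient q : ℝ) / q ≤ propKeep γ q := by
  rcases Nat.eq_zero_or_pos q with rfl | hq
  · simp [(propKeep_pos γ 0).le]
  have e : (Nat.totient q : ℝ) = q * ∏ p ∈ q.primeFactors, (1 - (p : ℝ)⁻¹) := by
    have := congrArg (fun x : ℚ => (x : ℝ)) (Nat.totient_eq_mul_prod_factors q)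
    push_cast at this
    exact this
  rw [e, mul_div_assoc, mul_comm, div_mul_cancel₀]
  · rw [propKeep, exclPrimes, Finset.prod_filter]
    refine Finset.prod_le_prod (fun p hp => ?_) (fun p hp => ?_)
    · have := (Nat.prime_of_mem_primeFactors hp).one_le
      rw [sub_nonneg]
      exact inv_le_one_of_one_le₀ (by exact_mod_cast this)
    · split_ifs <;> simp
  · exact_mod_cast hq.ne'

lemma mass_nonneg {δ : ℕ → ℝ} (hδ : ∀ q, 0 ≤ δ q) (γ : ℝ) (q : ℕ) : 0 ≤ mass γ δ q := by
  have := propKeep_pos γ q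
  have := hδ q
  unfold mass
  positivity

lemma two_pow_card_primeFactors_le (q : ℕ) (hq : 0 < q) :
    (2 : ℝ) ^ q.primeFactors.card ≤ q.divisors.card := by
  rw [Nat.card_divisors hq.ne', ← Finset.prod_const]
  push_cast
  refine Finset.prod_le_prod (fun _ _ => by norm_num) (fun p hp => ?_)
  have : 1 ≤ q.factorization p :=
    Nat.Prime.factorization_pos_of_dvd (Nat.prime_of_mem_primeFactors hp) hq.ne'
      (Nat.dvd_of_mem_primeFactors hp)
  have : (1 : ℝ) ≤ q.factorization p := by exact_mod_cast this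
  linarith

lemma one_le_propKeep_mul_card (γ : ℝ) (q : ℕ) (hq : 0 < q) :
    1 ≤ propKeep γ q * q.divisors.card := by
  have h : ((1 : ℝ) / 2) ^ (exclPrimes γ q).card ≤ propKeep γ q := by
    rw [← Finset.prod_const]
    refine Finset.prod_le_prod (fun _ _ => by norm_num) (fun p hp => ?_)
    have := (Nat.prime_of_mem_primeFactors (Finset.mem_of_mem_filter _ hp)).two_le
    have : (2 : ℝ) ≤ p := by exact_mod_cast this
    have : 1 / (p : ℝ) ≤ 1 / 2 := one_div_le_one_div_of_le (by norm_num) this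
    linarith
  have h2 : (2 : ℝ) ^ (exclPrimes γ q).card ≤ q.divisors.card :=
    (pow_le_pow_right₀ one_le_two (Finset.card_le_card (Finset.filter_subset _ _))).trans
      (two_pow_card_primeFactors_le q hq)
  calc (1 : ℝ) = ((1 : ℝ) / 2) ^ (exclPrimes γ q).card * 2 ^ (exclPrimes γ q).card := by
        rw [← mul_pow]; norm_num
    _ ≤ _ := mul_le_mul h h2 (by positivity) (propKeep_pos γ q).le

end Vale.Agent.P028
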