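import Mathlib
import Vale.Agent.P028.Defs

/-!
# Measure-theoretic properties of the approximation sets
-/

namespace Vale.Agent.P028

open MeasureTheory Set Finset

open scoped Classical

/-- The standing assumption on the radii. -/
def SmallRadii (δ : ℕ → ℝ) : Prop :=
  δ 0 = 0 ∧ ∀ q, 0 ≤ δ q ∧ δ q * (q : ℝ) ^ 2 ≤ 1 / 16

lemma SmallRadii.half {δ : ℕ → ℝ} (hδ : SmallRadii δ) {q : ℕ} (hq : 0 < q) :
    (q : ℝ) * δ q < 1 / 2 := by
  have h := (hδ.2 q).2
  have h0 := (hδ.2 q).1
  have : (1 : ℝ) ≤ q := by exact_mod_cast hq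
  nlinarith [mul_nonneg h0 (mul_nonneg (by linarith : (0 : ℝ) ≤ q) (sub_nonneg.2 this))]

lemma keep_add_period (γ : ℝ) (q : ℕ) (z a : ℤ) : Keep γ q (a + z * q) ↔ Keep γ q a := by
  refine forall₂_congr fun p hp => not_congr ?_
  have hd : (p : ℤ) ∣ z * q * (denB γ q : ℤ) :=
    ((Int.natCast_dvd_natCast.2 (Nat.dvd_of_mem_primeFactors (Finset.mem_of_mem_filter _ hp))).mul_left
      z).mul_right _
  rw [add_mul, add_right_comm]
  exact dvd_add_left hd

lemma isOpen_approxSet (γ : ℝ) (δ : ℕ → ℝ) (q : ℕ) : IsOpen (approxSet γ δ q) := by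
  have : approxSet γ δ q = ⋃ a ∈ {a : ℤ | Keep γ q a}, Metric.ball (((a : ℝ) + γ) / q) (δ q) := by
    ext x
    simp [approxSet, Real.dist_eq]
  rw [this]
  exact isOpen_biUnion fun a _ => Metric.isOpen_ball

lemma approxSet_periodic (γ : ℝ) {δ : ℕ → ℝ} (hδ : SmallRadii δ) (q : ℕ) (x : ℝ) :
    x + 1 ∈ approxSet γ δ q ↔ x ∈ approxSet γ δ q := by
  rcases Nat.eq_zero_or_pos q with rfl | hq
  · refine iff_of_false ?_ ?_ <;>
      · rintro ⟨a, -, h⟩
        rw [hδ.1] at h
        exact (abs_nonneg _).not_gt h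
  have hq' : (q : ℝ) ≠ 0 := by exact_mod_cast hq.ne'
  constructor
  · rintro ⟨a, ha, hx⟩
    refine ⟨a + (-1) * q, (keep_add_period γ q _ a).2 ha, ?_⟩
    convert hx using 2
    push_cast
    field_simp
    ring
  · rintro ⟨a, ha, hx⟩
    refine ⟨a + 1 * q, (keep_add_period γ q _ a).2 ha, ?_⟩
    convert hx using 2
    push_cast
    field_simp
    ring

lemma volume_periodic {P : Set ℝ} (hP : MeasurableSet P) (hper : ∀ x, x + 1 ∈ P ↔ x ∈ P)
    (s t : ℝ) : volume.real (P ∩ Set.Ico s (s + 1)) = volume.real (P ∩ Set.Ico t (t + 1)) := by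
  have h1 := isAddFundamentalDomain_Ioc (T := (1 : ℝ)) one_pos s
  have h2 := isAddFundamentalDomain_Ioc (T := (1 : ℝ)) one_pos t
  have e := h1.measure_set_eq h2 hP (fun g => by
    obtain ⟨g, hg⟩ := g
    obtain ⟨z, rfl⟩ := AddSubgroup.mem_zmultiples_iff.1 hg
    ext x
    have hz : z • (1 : ℝ) +ᵥ x = x + z := by simp [add_comm]
    change (z • (1 : ℝ) +ᵥ x) ∈ P ↔ x ∈ P
    rw [hz]
    have hp : Function.Periodic (fun y => y ∈ P) (1 : ℝ) := fun y => propext (hper y)
    have := hp.int_mul z x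
    simp only [mul_one] at this
    rw [this])
  have hc : ∀ u : ℝ, volume (P ∩ Set.Ico u (u + 1)) = volume (P ∩ Set.Ioc u (u + 1)) := fun u =>
    measure_congr (Filter.EventuallyEq.rfl.inter Ico_ae_eq_Ioc)
  rw [measureReal_def, measureReal_def, hc, hc, e]

/-- Kept pairs of nearby centres. -/
noncomputable def keptPairs (γ : ℝ) (δ : ℕ → ℝ) (q r : ℕ) : Finset (ℤ × ℤ) :=
  (pairSet q r γ γ (δ q + δ r)).filter (fun p => Keep γ q p.1 ∧ Keep γ r p.2)

lemma volume_real_ball_inter_le {c c' s t : ℝ} (hs : 0 ≤ s) (ht : 0 ≤ t) :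
    volume.real (Metric.ball c s ∩ Metric.ball c' t) ≤ 2 * min s t := by
  rcases le_total s t with h | h
  · rw [min_eq_left h, ← Real.volume_real_ball (a := c) hs]
    exact measureReal_mono Set.inter_subset_left measure_ball_lt_top.ne
  · rw [min_eq_right h, ← Real.volume_real_ball (a := c') ht]
    exact measureReal_mono Set.inter_subset_right measure_ball_lt_top.ne

lemma overlap_le (γ : ℝ) {δ : ℕ → ℝ} (hδ : SmallRadii δ) {q r : ℕ} (hq : 0 < q) (hr : 0 < r) :
    volume.real (approxSet γ δ q ∩ approxSet γ δ r ∩ Set.Ico 0 1)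
      ≤ 2 * min (δ q) (δ r) * (keptPairs γ δ q r).card := by
  have hq' : (0 : ℝ) < q := by exact_mod_cast hq
  set P := approxSet γ δ q ∩ approxSet γ δ r
  set s : ℝ := (γ - 1 / 2) / q with hs
  have hper : ∀ x, x + 1 ∈ P ↔ x ∈ P := fun x =>
    and_congr (approxSet_periodic γ hδ q x) (approxSet_periodic γ hδ r x)
  have e := volume_periodic ((isOpen_approxSet γ δ q).inter (isOpen_approxSet γ δ r)).measurableSet
    hper 0 s
  rw [zero_add] at e
  rw [e]
  have hsub : P ∩ Set.Ico s (s + 1) ⊆ ⋃ p ∈ keptPairs γ δ q r,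
      Metric.ball (((p.1 : ℝ) + γ) / q) (δ q) ∩ Metric.ball (((p.2 : ℝ) + γ) / r) (δ r) := by
    rintro x ⟨⟨⟨a, ha, hxa⟩, b, hb, hxb⟩, hx1, hx2⟩
    have hh := hδ.half hq
    have e1 : ((a : ℝ) + γ) = q * (((a : ℝ) + γ) / q) := by field_simp
    have e2 : q * s = γ - 1 / 2 := by rw [hs]; field_simp
    obtain ⟨u1, u2⟩ := abs_lt.1 hxa
    have l1 : (a : ℝ) + γ > γ - 1 := by
      have : (q : ℝ) * (((a : ℝ) + γ) / q) > q * (s - δ q) :=
        mul_lt_mul_of_pos_left (by linarith) hq'
      linarith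
    have l2 : (a : ℝ) + γ < γ + q := by
      have : (q : ℝ) * (((a : ℝ) + γ) / q) < q * (s + 1 + δ q) :=
        mul_lt_mul_of_pos_left (by linarith) hq'
      linarith
    have a1 : -1 < a := by
      have : (-1 : ℝ) < a := by linarith
      exact_mod_cast this
    have a2 : a < (q : ℤ) := by
      have : (a : ℝ) < q := by linarith
      exact_mod_cast this
    refine Set.mem_biUnion (x := (a, b)) (Finset.mem_filter.2
      ⟨(mem_pairSet hq hr).2 ⟨⟨by simp only; omega, by simp only; omega⟩, ?_⟩, ha, hb⟩)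
      ⟨by simpa [Real.dist_eq] using hxa, by simpa [Real.dist_eq] using hxb⟩
    simp only
    calc |((a : ℝ) + γ) / q - ((b : ℝ) + γ) / r|
        ≤ |((a : ℝ) + γ) / q - x| + |x - ((b : ℝ) + γ) / r| := abs_sub_le _ _ _
      _ < δ q + δ r := by rw [abs_sub_comm]; exact add_lt_add hxa hxb
  refine (measureReal_mono hsub ?_).trans ((measureReal_biUnion_finset_le _ _).trans ?_)
  · exact (measure_biUnion_lt_top (Finset.finite_toSet _) fun p _ =>
      measure_lt_top_of_subset Set.inter_subset_left measure_ball_lt_top.ne).ne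
  · refine (Finset.sum_le_sum fun p _ =>
      volume_real_ball_inter_le (hδ.2 q).1 (hδ.2 r).1).trans (le_of_eq ?_)
    rw [Finset.sum_const, nsmul_eq_mul]
    ring

lemma card_exclPrimes_le (γ : ℝ) (q : ℕ) (hq : 0 < q) :
    (2 : ℝ) ^ (exclPrimes γ q).card ≤ q.divisors.card :=
  (pow_le_pow_right₀ one_le_two (Finset.card_le_card (Finset.filter_subset _ _))).trans
    (two_pow_card_primeFactors_le q hq)

/-- Number of kept numerators in a real interval. -/
lemma card_keep (γ : ℝ) (q : ℕ) (hq : 0 < q) {x y : ℝ} (hxy : x ≤ y) :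
    |(((intIoo x y).filter (fun a => Keep γ q a)).card : ℝ) - (y - x) * propKeep γ q|
      ≤ q.divisors.card := by
  have h := card_avoid (exclPrimes γ q)
    (fun p hp => Nat.prime_of_mem_primeFactors (Finset.mem_of_mem_filter _ hp))
    (numA γ q) (denB γ q) (fun p hp => (Finset.mem_filter.1 hp).2) hxy
  refine le_trans (le_of_eq ?_) (h.trans (card_exclPrimes_le γ q hq))
  congr 4
  exact Finset.filter_congr fun a _ => Iff.rfl

lemma approxSet_equidist (γ : ℝ) {δ : ℕ → ℝ} (hδ : SmallRadii δ) {q : ℕ} (hq : 0 < q)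
    {x y : ℝ} (hxy : x ≤ y) :
    |volume.real (approxSet γ δ q ∩ Set.Ico x y) - 2 * mass γ δ q * (y - x)|
      ≤ 6 * δ q * q.divisors.card := by
  have hq' : (0 : ℝ) < q := by exact_mod_cast hq
  have hd0 := (hδ.2 q).1
  have hh := hδ.half hq
  have hp1 := propKeep_le_one γ q
  have hp0 := propKeep_pos γ q
  have hτ : (1 : ℝ) ≤ q.divisors.card := by
    have : 0 < q.divisors.card := Finset.card_pos.2 ⟨1, Nat.one_mem_divisors.2 hq.ne'⟩
    exact_mod_cast this
  have hmass : 2 * mass γ δ q * (y - x) = 2 * δ q * (q * (y - x) * propKeep γ q) := by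
    unfold mass; ring
  rw [abs_le]
  constructor
  · rcases le_total (q * (y - x)) 2 with h | h
    · have : q * (y - x) * propKeep γ q ≤ 3 * q.divisors.card := by
        have : q * (y - x) * propKeep γ q ≤ 2 * 1 := mul_le_mul h hp1 hp0.le (by norm_num)
        linarith
      have := mul_le_mul_of_nonneg_left this (by positivity : 0 ≤ 2 * δ q)
      have := measureReal_nonneg (μ := volume) (s := approxSet γ δ q ∩ Set.Ico x y)
      linarith
    set F := (intIoo (q * x - γ + 1) (q * y - γ - 1)).filter (fun a => Keep γ q a) with hF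
    have hsub : (⋃ a ∈ F, Metric.ball (((a : ℝ) + γ) / q) (δ q))
        ⊆ approxSet γ δ q ∩ Set.Ico x y := by
      refine Set.iUnion₂_subset fun a ha z hz => ?_
      rw [hF, Finset.mem_filter, mem_intIoo] at ha
      rw [Metric.mem_ball, Real.dist_eq] at hz
      refine ⟨⟨a, ha.2, hz⟩, ?_⟩
      obtain ⟨u1, u2⟩ := abs_lt.1 hz
      have e1 : (q : ℝ) * (((a : ℝ) + γ) / q) = (a : ℝ) + γ := by field_simp
      constructor
      · refine le_of_mul_le_mul_left ?_ hq'
        have : (q : ℝ) * (((a : ℝ) + γ) / q - δ q) ≤ q * z :=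
          mul_le_mul_of_nonneg_left (by linarith) hq'.le
        linarith [ha.1.1]
      · refine lt_of_mul_lt_mul_left ?_ hq'.le
        have : (q : ℝ) * z ≤ q * (((a : ℝ) + γ) / q + δ q) :=
          mul_le_mul_of_nonneg_left (by linarith) hq'.le
        linarith [ha.1.2]
    have hdisj : (F : Set ℤ).PairwiseDisjoint
        (fun a : ℤ => Metric.ball (((a : ℝ) + γ) / q) (δ q)) := by
      intro a _ b _ hab
      refine Metric.ball_disjoint_ball ?_
      rw [Real.dist_eq, ← sub_div, abs_div, abs_of_pos hq', le_div_iff₀ hq']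
      have : (1 : ℤ) ≤ |a - b| := Int.one_le_abs (sub_ne_zero.2 hab)
      have h1 : (1 : ℝ) ≤ |(a : ℝ) - b| := by exact_mod_cast this
      rw [add_sub_add_right_eq_sub]
      linarith
    have hfin : volume (approxSet γ δ q ∩ Set.Ico x y) ≠ ⊤ :=
      measure_ne_top_of_subset Set.inter_subset_right (by simp)
    have h1 := measureReal_mono (μ := volume) hsub hfin
    rw [measureReal_biUnion_finset hdisj (fun a _ => measurableSet_ball)
      (fun a _ => measure_ball_lt_top.ne),
      Finset.sum_congr rfl fun a _ => Real.volume_real_ball hd0, Finset.sum_const, nsmul_eq_mul] at h1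
    have h2 := (abs_le.1 (card_keep γ q hq (x := q * x - γ + 1) (y := q * y - γ - 1) (by linarith))).1
    rw [← hF] at h2
    have h3 : q * (y - x) * propKeep γ q - 3 * q.divisors.card ≤ F.card := by
      linarith
    have := mul_le_mul_of_nonneg_left h3 (by positivity : 0 ≤ 2 * δ q)
    linarith
  · set F := (intIoo (q * x - γ - 1) (q * y - γ + 1)).filter (fun a => Keep γ q a) with hF
    have hsub : approxSet γ δ q ∩ Set.Ico x y
        ⊆ ⋃ a ∈ F, Metric.ball (((a : ℝ) + γ) / q) (δ q) := by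
      rintro z ⟨⟨a, ha, hz⟩, hz1, hz2⟩
      obtain ⟨u1, u2⟩ := abs_lt.1 hz
      have e1 : (q : ℝ) * (((a : ℝ) + γ) / q) = (a : ℝ) + γ := by field_simp
      refine Set.mem_biUnion (Finset.mem_filter.2 ⟨mem_intIoo.2 ⟨?_, ?_⟩, ha⟩)
        (by simpa [Real.dist_eq] using hz)
      · have : (q : ℝ) * (x - δ q) < q * (((a : ℝ) + γ) / q) :=
          mul_lt_mul_of_pos_left (by linarith) hq'
        linarith
      · have : (q : ℝ) * (((a : ℝ) + γ) / q) < q * (y + δ q) :=
          mul_lt_mul_of_pos_left (by linarith) hq'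
        linarith
    have hqxy : (q : ℝ) * x ≤ q * y := mul_le_mul_of_nonneg_left hxy hq'.le
    have h1 := (measureReal_mono (μ := volume) hsub
      (measure_biUnion_lt_top (Finset.finite_toSet _) fun a _ => measure_ball_lt_top).ne).trans
      (measureReal_biUnion_finset_le F _)
    rw [Finset.sum_congr rfl fun a _ => Real.volume_real_ball hd0, Finset.sum_const,
      nsmul_eq_mul] at h1
    have h2 := (abs_le.1 (card_keep γ q hq (x := q * x - γ - 1) (y := q * y - γ + 1) (by linarith))).2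
    rw [← hF] at h2
    have h3 : (F.card : ℝ) ≤ q * (y - x) * propKeep γ q + 3 * q.divisors.card := by
      linarith
    have := mul_le_mul_of_nonneg_left h3 (by positivity : 0 ≤ 2 * δ q)
    linarith

end Vale.Agent.P028
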