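import Mathlib
import Vale.Agent.P028.Count

/-!
# Lattice points close to a line, off the major arc
-/

namespace Vale.Agent.P028

open Finset

lemma card_congr_spread (M : Finset ℤ) (B : ℕ) (hB : 0 < B) {x y : ℝ} (hxy : x ≤ y)
    (h : ∀ m ∈ M, x ≤ m ∧ (m : ℝ) ≤ y) (hc : ∀ m ∈ M, ∀ m' ∈ M, (B : ℤ) ∣ m - m') :
    (M.card : ℝ) ≤ (y - x) / B + 2 := by
  have hB' : (0 : ℝ) < B := by exact_mod_cast hB
  rcases M.eq_empty_or_nonempty with rfl | ⟨m₀, hm₀⟩
  · have : (0 : ℝ) ≤ (y - x) / B := div_nonneg (by linarith) hB'.le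
    simp
    linarith
  have hsub : M ⊆ (intIoo (x - B / 2) (y + B / 2)).filter (fun a => (B : ℤ) ∣ a - m₀) := by
    intro m hm
    rw [Finset.mem_filter, mem_intIoo]
    exact ⟨⟨by linarith [(h m hm).1], by linarith [(h m hm).2]⟩, hc m hm m₀ hm₀⟩
  have h1 := (abs_le.1 (card_intIoo_dvd (x := x - B / 2) (y := y + B / 2) (by linarith) B hB m₀)).2
  have h2 := (Nat.cast_le (α := ℝ)).2 (Finset.card_le_card hsub)
  have h3 : (y + B / 2 - (x - B / 2)) / (B : ℝ) = (y - x) / B + 1 := by field_simp; ring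
  linarith

lemma lattice_card (A : ℤ) (B : ℕ) (hB : 0 < B) (hco : IsCoprime A (B : ℤ)) (γ η L : ℝ)
    (hη : 0 ≤ η) (hL : 0 ≤ L) (S : Finset (ℤ × ℤ))
    (h : ∀ p ∈ S, |(p.1 : ℝ)| ≤ L ∧ p.2 * B ≠ p.1 * A ∧ |(p.2 : ℝ) - p.1 * γ| < η) :
    (S.card : ℝ) ≤ 8 * L * η + 4 * B * η + 4 * |(B : ℝ) * γ - A| * L := by
  classical
  have hB' : (0 : ℝ) < B := by exact_mod_cast hB
  set β : ℝ := (B : ℝ) * γ - A with hβ
  set Λ : ℝ := B * η + |β| * L with hΛ
  have hΛ0 : 0 ≤ Λ := by positivity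
  set ell : ℤ × ℤ → ℤ := fun p => p.2 * B - p.1 * A with hell
  have hlin : ∀ p ∈ S, |(ell p : ℝ) - p.1 * β| < B * η := by
    intro p hp
    have e : (ell p : ℝ) - p.1 * β = B * ((p.2 : ℝ) - p.1 * γ) := by
      simp only [hell, hβ]; push_cast; ring
    rw [e, abs_mul, abs_of_pos hB']
    exact mul_lt_mul_of_pos_left (h p hp).2.2 hB'
  set T : Finset ℤ := (Finset.Icc (-(⌊Λ⌋₊ : ℤ)) (⌊Λ⌋₊ : ℤ)).erase 0 with hT
  have hmaps : (S : Set (ℤ × ℤ)).MapsTo ell (T : Set ℤ) := by
    intro p hp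
    rw [Finset.mem_coe] at hp ⊢
    rw [hT, Finset.mem_erase, Finset.mem_Icc]
    refine ⟨sub_ne_zero.2 (h p hp).2.1, ?_⟩
    have h1 : |(ell p : ℝ)| ≤ Λ := by
      have h2 : |(p.1 : ℝ) * β| ≤ |β| * L := by
        rw [abs_mul, mul_comm]
        exact mul_le_mul_of_nonneg_left (h p hp).1 (abs_nonneg _)
      have := abs_sub_abs_le_abs_sub (ell p : ℝ) (p.1 * β)
      linarith [hlin p hp]
    have h3 : (ell p).natAbs ≤ ⌊Λ⌋₊ := by
      refine Nat.le_floor ?_
      rwa [Nat.cast_natAbs, Int.cast_abs]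
    omega
  have hTcard : (T.card : ℝ) ≤ 2 * Λ := by
    have h0 : T.card = 2 * ⌊Λ⌋₊ := by
      rw [hT, Finset.card_erase_of_mem (Finset.mem_Icc.2 ⟨by omega, by omega⟩), Int.card_Icc]
      omega
    rw [h0]
    push_cast
    have := Nat.floor_le hΛ0
    linarith
  have hfib : ∀ l ∈ T, ((S.filter (fun p => ell p = l)).card : ℝ) ≤ 2 + 2 * L / B ∧
      (β ≠ 0 → ((S.filter (fun p => ell p = l)).card : ℝ) ≤ 2 + 2 * η / |β|) := by
    intro l _
    set F := S.filter (fun p => ell p = l) with hF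
    have hinj : Set.InjOn (Prod.fst : ℤ × ℤ → ℤ) (F : Set (ℤ × ℤ)) := by
      intro p hp p' hp' he
      rw [Finset.mem_coe, hF, Finset.mem_filter] at hp hp'
      have e1 := hp.2
      have e2 := hp'.2
      simp only [hell] at e1 e2
      rw [← he] at e2
      exact Prod.ext he (mul_right_cancel₀ (Int.natCast_ne_zero.2 hB.ne') (by linarith))
    rw [← Finset.card_image_of_injOn hinj]
    have hc : ∀ m ∈ F.image Prod.fst, ∀ m' ∈ F.image Prod.fst, (B : ℤ) ∣ m - m' := by
      intro m hm m' hm'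
      obtain ⟨p, hp, rfl⟩ := Finset.mem_image.1 hm
      obtain ⟨p', hp', rfl⟩ := Finset.mem_image.1 hm'
      have e1 := (Finset.mem_filter.1 hp).2
      have e2 := (Finset.mem_filter.1 hp').2
      simp only [hell] at e1 e2
      refine hco.symm.dvd_of_dvd_mul_right ⟨p.2 - p'.2, ?_⟩
      linear_combination e2 - e1
    constructor
    · have := card_congr_spread _ B hB (x := -L) (y := L) (by linarith) (fun m hm => by
        obtain ⟨p, hp, rfl⟩ := Finset.mem_image.1 hm
        exact abs_le.1 (h p (Finset.mem_filter.1 hp).1).1) hc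
      refine this.trans (le_of_eq ?_)
      ring
    · intro hβ0
      have hb : 0 < |β| := abs_pos.2 hβ0
      have := card_congr_spread _ B hB (x := (l : ℝ) / β - B * η / |β|)
        (y := (l : ℝ) / β + B * η / |β|)
        (by have : 0 ≤ (B : ℝ) * η / |β| := by positivity
            linarith) (fun m hm => by
        obtain ⟨p, hp, rfl⟩ := Finset.mem_image.1 hm
        obtain ⟨hpS, hpl⟩ := Finset.mem_filter.1 hp
        have h1 := hlin p hpS
        rw [hpl] at h1
        have h2 : |(l : ℝ) / β - p.1| ≤ B * η / |β| := by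
          have e : (l : ℝ) / β - p.1 = ((l : ℝ) - p.1 * β) / β := by field_simp
          rw [e, abs_div]
          exact div_le_div_of_nonneg_right h1.le hb.le
        obtain ⟨h3, h4⟩ := abs_le.1 h2
        exact ⟨by linarith, by linarith⟩) hc
      refine this.trans (le_of_eq ?_)
      field_simp
      ring
  have hS : (S.card : ℝ) = ∑ l ∈ T, ((S.filter (fun p => ell p = l)).card : ℝ) := by
    rw [Finset.card_eq_sum_card_fiberwise hmaps]
    push_cast
    rfl
  rcases eq_or_ne β 0 with hb0 | hb0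
  · have hsum : (S.card : ℝ) ≤ (T.card : ℝ) * (2 + 2 * L / B) := by
      rw [hS]
      refine (Finset.sum_le_sum fun l hl => (hfib l hl).1).trans (le_of_eq ?_)
      rw [Finset.sum_const, nsmul_eq_mul]
    refine hsum.trans ((mul_le_mul_of_nonneg_right hTcard (by positivity)).trans ?_)
    rw [hΛ, hb0, abs_zero]
    have e : 2 * ((B : ℝ) * η + 0 * L) * (2 + 2 * L / B) = 4 * B * η + 4 * L * η := by
      field_simp; ring
    rw [e]
    nlinarith [mul_nonneg hL hη]
  · set f : ℝ := min (2 * L / B) (2 * η / |β|) with hf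
    have hb : 0 < |β| := abs_pos.2 hb0
    have hf0 : 0 ≤ f := le_min (by positivity) (by positivity)
    have hsum : (S.card : ℝ) ≤ (T.card : ℝ) * (2 + f) := by
      rw [hS]
      refine (Finset.sum_le_sum fun l hl => ?_).trans
        (le_of_eq (by rw [Finset.sum_const, nsmul_eq_mul]))
      rw [hf, ← min_add_add_left]
      exact le_min (hfib l hl).1 ((hfib l hl).2 hb0)
    refine hsum.trans ((mul_le_mul_of_nonneg_right hTcard (by positivity)).trans ?_)
    have h1 : (B : ℝ) * η * f ≤ 2 * L * η := by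
      refine (mul_le_mul_of_nonneg_left (min_le_left _ _) (by positivity)).trans (le_of_eq ?_)
      field_simp
    have h2 : |β| * L * f ≤ 2 * L * η := by
      refine (mul_le_mul_of_nonneg_left (min_le_right _ _) (by positivity)).trans (le_of_eq ?_)
      field_simp
    rw [hΛ]
    nlinarith

end Vale.Agent.P028
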