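import Mathlib
import Vale.Agent.P028.Geometry
import Vale.Agent.P028.Lattice

/-!
# The bounds for a single pair and the tail of large gcd's
-/

namespace Vale.Agent.P028

open Finset MeasureTheory

open scoped Classical

/-- `2 ^ x` for real `x`. -/
noncomputable def rp (x : ℝ) : ℝ := (2 : ℝ) ^ x

lemma rp_pos (x : ℝ) : 0 < rp x := Real.rpow_pos_of_pos two_pos x
lemma rp_add (x y : ℝ) : rp (x + y) = rp x * rp y := Real.rpow_add two_pos x y
lemma rp_neg (x : ℝ) : rp (-x) = (rp x)⁻¹ := Real.rpow_neg two_pos.le x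
lemma rp_mono {x y : ℝ} (h : x ≤ y) : rp x ≤ rp y := Real.rpow_le_rpow_of_exponent_le one_le_two h
lemma rp_natCast (n : ℕ) : rp (n : ℝ) = (2 : ℝ) ^ n := Real.rpow_natCast 2 n
lemma rp_zero : rp 0 = 1 := Real.rpow_zero 2
lemma rp_mul_natCast (x : ℝ) (n : ℕ) : rp (x * n) = rp x ^ n := by
  unfold rp
  rw [Real.rpow_mul two_pos.le, Real.rpow_natCast]

/-- Main term for a pair. -/
noncomputable def mainTerm (γ : ℝ) (δ : ℕ → ℝ) (z q r : ℕ) : ℝ :=
  8 * (mass γ δ q * bigPrimeRatio z q) * (mass γ δ r * bigPrimeRatio z r)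

/-- Overlap of two approximation sets on a period. -/
noncomputable def overlap (γ : ℝ) (δ : ℕ → ℝ) (q r : ℕ) : ℝ :=
  volume.real (approxSet γ δ q ∩ approxSet γ δ r ∩ Set.Ico 0 1)

lemma one_le_prod_mul_ratio {S T : Finset ℕ} (h : S ⊆ T) (hT : ∀ p ∈ T, p.Prime) :
    1 ≤ (∏ p ∈ S, (1 - 1 / (p : ℝ))) * ∏ p ∈ T, (p : ℝ) / ((p : ℝ) - 1) := by
  rw [← Finset.prod_sdiff h, mul_left_comm, ← Finset.prod_mul_distrib]
  have e : ∏ p ∈ S, (1 - 1 / (p : ℝ)) * ((p : ℝ) / ((p : ℝ) - 1)) = 1 := by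
    refine Finset.prod_eq_one fun p hp => ?_
    have : (2 : ℝ) ≤ p := by exact_mod_cast (hT p (h hp)).two_le
    have h1 : (p : ℝ) - 1 ≠ 0 := by linarith
    field_simp
  rw [e, mul_one]
  exact Finset.one_le_prod fun p hp => one_le_ratio (hT p (Finset.sdiff_subset hp))

lemma one_le_propKeep_mul_ratio (γ : ℝ) (q : ℕ) : 1 ≤ propKeep γ q * bigPrimeRatio 0 q :=
  one_le_prod_mul_ratio (fun p hp => Finset.mem_filter.2
    ⟨Finset.mem_of_mem_filter _ hp,
      (Nat.prime_of_mem_primeFactors (Finset.mem_of_mem_filter _ hp)).pos⟩)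
    (fun p hp => Nat.prime_of_mem_primeFactors (Finset.mem_of_mem_filter _ hp))

lemma smallProd_le (γ : ℝ) (z q : ℕ) :
    ∏ p ∈ (exclPrimes γ q).filter (fun p => p ≤ z), (1 - 1 / (p : ℝ))
      ≤ propKeep γ q * bigPrimeRatio z q := by
  rw [propKeep, ← Finset.prod_filter_mul_prod_filter_not (exclPrimes γ q) (fun p => p ≤ z),
    mul_assoc]
  refine le_mul_of_one_le_right (Finset.prod_nonneg fun p hp => ?_) ?_
  · have := (Nat.prime_of_mem_primeFactors
      (Finset.mem_of_mem_filter _ (Finset.mem_of_mem_filter _ hp))).one_le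
    rw [sub_nonneg, div_le_one (by exact_mod_cast this)]
    exact_mod_cast this
  · refine one_le_prod_mul_ratio (fun p hp => ?_)
      (fun p hp => Nat.prime_of_mem_primeFactors (Finset.mem_of_mem_filter _ hp))
    rw [Finset.mem_filter] at hp ⊢
    exact ⟨Finset.mem_of_mem_filter _ hp.1, not_le.1 hp.2⟩

lemma overlap_le_main (γ : ℝ) {δ : ℕ → ℝ} (hδ : SmallRadii δ) {q r : ℕ} (hq : 0 < q) (hr : 0 < r)
    (z : ℕ) :
    overlap γ δ q r ≤ mainTerm γ δ z q r + 2 * 4 ^ z * min (δ q) (δ r) * Nat.gcd q r := by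
  set m := min (δ q) (δ r) with hm
  have h0 := (hδ.2 q).1
  have h0' := (hδ.2 r).1
  have hm0 : 0 ≤ m := le_min h0 h0'
  set P := (exclPrimes γ q).filter (fun p => p ≤ z) with hP
  set P' := (exclPrimes γ r).filter (fun p => p ≤ z) with hP'
  have hsub : keptPairs γ δ q r ⊆ (pairSet q r γ γ (δ q + δ r)).filter
      (fun p => Avoid P (numA γ q) (denB γ q) p.1 ∧ Avoid P' (numA γ r) (denB γ r) p.2) := by
    intro p hp
    obtain ⟨hp1, hp2, hp3⟩ := Finset.mem_filter.1 hp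
    exact Finset.mem_filter.2 ⟨hp1, fun l hl => hp2 l (Finset.mem_of_mem_filter _ hl),
      fun l hl => hp3 l (Finset.mem_of_mem_filter _ hl)⟩
  have h1 := card_pairSet_avoid q r hq hr P P'
    ((Finset.filter_subset _ _).trans (Finset.filter_subset _ _))
    ((Finset.filter_subset _ _).trans (Finset.filter_subset _ _))
    (denB γ q) (denB γ r) (numA γ q) (numA γ r)
    (fun p hp => (Finset.mem_filter.1 (Finset.mem_of_mem_filter _ hp)).2)
    (fun p hp => (Finset.mem_filter.1 (Finset.mem_of_mem_filter _ hp)).2) γ γ (δ q + δ r)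
    (by positivity)
  have hc : ∀ (n : ℕ), ((exclPrimes γ n).filter (fun p => p ≤ z)).card ≤ z := by
    intro n
    refine (Finset.card_le_card (t := Finset.Icc 1 z) fun p hp => ?_).trans (by simp)
    exact Finset.mem_Icc.2 ⟨(Nat.prime_of_mem_primeFactors
      (Finset.mem_of_mem_filter _ (Finset.mem_of_mem_filter _ hp))).one_le,
      (Finset.mem_filter.1 hp).2⟩
  have h2 : (2 : ℝ) ^ P.card * 2 ^ P'.card ≤ 4 ^ z := by
    rw [show (4 : ℝ) = 2 * 2 by norm_num, mul_pow]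
    exact mul_le_mul (pow_le_pow_right₀ one_le_two (hc q)) (pow_le_pow_right₀ one_le_two (hc r))
      (by positivity) (by positivity)
  have h3 : ((keptPairs γ δ q r).card : ℝ) ≤
      2 * (δ q + δ r) * q * r * ((propKeep γ q * bigPrimeRatio z q) *
        (propKeep γ r * bigPrimeRatio z r)) + 4 ^ z * Nat.gcd q r := by
    refine le_trans (le_trans (by exact_mod_cast Finset.card_le_card hsub) h1) ?_
    refine add_le_add ?_ (mul_le_mul_of_nonneg_right h2 (Nat.cast_nonneg _))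
    rw [mul_assoc (2 * (δ q + δ r) * q * r)]
    refine mul_le_mul_of_nonneg_left ?_ (by positivity)
    refine mul_le_mul (smallProd_le γ z q) (smallProd_le γ z r) ?_ ?_
    · refine Finset.prod_nonneg fun p hp => ?_
      have := (Nat.prime_of_mem_primeFactors
        (Finset.mem_of_mem_filter _ (Finset.mem_of_mem_filter _ hp))).one_le
      rw [sub_nonneg, div_le_one (by exact_mod_cast this)]
      exact_mod_cast this
    · have := propKeep_pos γ q
      have := one_le_bigPrimeRatio z q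
      positivity
  refine (overlap_le γ hδ hq hr).trans ((mul_le_mul_of_nonneg_left h3 (by positivity)).trans ?_)
  have h4 : m * (δ q + δ r) ≤ 2 * (δ q * δ r) := by
    have a1 : m * δ q ≤ δ r * δ q := mul_le_mul_of_nonneg_right (min_le_right _ _) h0
    have a2 : m * δ r ≤ δ q * δ r := mul_le_mul_of_nonneg_right (min_le_left _ _) h0'
    linarith
  have hX : 0 ≤ (q : ℝ) * r * ((propKeep γ q * bigPrimeRatio z q) *
      (propKeep γ r * bigPrimeRatio z r)) := by
    have := propKeep_pos γ q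
    have := propKeep_pos γ r
    have := one_le_bigPrimeRatio z q
    have := one_le_bigPrimeRatio z r
    positivity
  have := mul_le_mul_of_nonneg_right h4 hX
  unfold mainTerm mass
  linarith

/-- The integers `n` with `n / m` close to `γ`, outside the major arc. -/
noncomputable def offMajor (γ : ℝ) (A : ℤ) (B : ℕ) (η : ℝ) (m : ℤ) : Finset ℤ :=
  (intIoo ((m : ℝ) * γ - η) ((m : ℝ) * γ + η)).filter (fun n => n * B ≠ m * A)

lemma overlap_le_tail (γ : ℝ) {δ : ℕ → ℝ} (hδ : SmallRadii δ) {q r : ℕ} (hq : 0 < q) (hqr : q < r)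
    {η₀ : ℝ} (hη : (δ q + δ r) * q * r ≤ η₀) :
    overlap γ δ q r ≤ 2 * min (δ q) (δ r) * ((Nat.gcd q r : ℝ) *
      (offMajor γ (numA γ r) (denB γ r) (η₀ / Nat.gcd q r)
        ((r / Nat.gcd q r : ℕ) - (q / Nat.gcd q r : ℕ))).card) := by
  have hr : 0 < r := hq.trans hqr
  refine (overlap_le γ hδ hq hr).trans (mul_le_mul_of_nonneg_left ?_ ?_)
  swap
  · have := (hδ.2 q).1
    have := (hδ.2 r).1
    positivity
  set g := Nat.gcd q r with hg
  have hg0 : 0 < g := Nat.gcd_pos_of_pos_left _ hq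
  set u := q / g with hu'
  set v := r / g with hv'
  have hqu : q = g * u := (Nat.mul_div_cancel' (Nat.gcd_dvd_left q r)).symm
  have hrv : r = g * v := (Nat.mul_div_cancel' (Nat.gcd_dvd_right q r)).symm
  have hu : 0 < u := Nat.div_pos (Nat.le_of_dvd hq (Nat.gcd_dvd_left q r)) hg0
  have huv : u < v := by
    by_contra h
    have : g * v ≤ g * u := Nat.mul_le_mul_left g (not_lt.1 h)
    omega
  have hco : Nat.Coprime u v := Nat.coprime_div_gcd_div_gcd hg0
  have hgR : (0 : ℝ) < g := by exact_mod_cast hg0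
  have huR : (0 : ℝ) < u := by exact_mod_cast hu
  have hvR : (0 : ℝ) < v := by exact_mod_cast (hu.trans huv)
  rw [show ((g : ℝ) * _) = ((g * (offMajor γ (numA γ r) (denB γ r) (η₀ / g)
    ((v : ℤ) - (u : ℤ))).card : ℕ) : ℝ) by push_cast; rfl]
  rw [Nat.cast_le]
  refine Finset.card_le_mul_card_image_of_maps_to
    (f := fun p : ℤ × ℤ => (u : ℤ) * p.2 - (v : ℤ) * p.1) (fun p hp => ?_) g (fun k _ => ?_)
  · obtain ⟨hp1, _, hp3⟩ := Finset.mem_filter.1 hp
    obtain ⟨_, hclose⟩ := (mem_pairSet hq hr).1 hp1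
    rw [offMajor, Finset.mem_filter, mem_intIoo]
    constructor
    · have e : ((p.1 : ℝ) + γ) / q - ((p.2 : ℝ) + γ) / r
          = -((((u : ℤ) * p.2 - (v : ℤ) * p.1 : ℤ) : ℝ) - (((v : ℤ) - (u : ℤ) : ℤ) : ℝ) * γ) /
            ((g : ℝ) * u * v) := by
        rw [hqu, hrv]; push_cast; field_simp; ring
      rw [e, abs_div, abs_neg, abs_of_pos (by positivity : (0 : ℝ) < g * u * v),
        div_lt_iff₀ (by positivity)] at hclose
      have h2 : (δ q + δ r) * ((g : ℝ) * u * v) ≤ η₀ / g := by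
        rw [le_div_iff₀ hgR]
        refine le_trans (le_of_eq ?_) hη
        rw [hqu, hrv]; push_cast; ring
      obtain ⟨a1, a2⟩ := abs_lt.1 (hclose.trans_le h2)
      constructor <;> linarith
    · intro hEq
      have key : (u : ℤ) * (p.2 * (denB γ r : ℤ) + numA γ r)
          = (v : ℤ) * (p.1 * (denB γ r : ℤ) + numA γ r) := by linarith
      have hcr := keep_iff_coprime hr hp3
      have hd : (v : ℤ) ∣ p.2 * (denB γ r : ℤ) + numA γ r := by
        refine (Int.isCoprime_iff_gcd_eq_one.2 ?_).dvd_of_dvd_mul_left (Dvd.intro _ key.symm)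
        rw [Int.gcd_natCast_natCast]
        exact hco.symm
      have hvr : (v : ℤ) ∣ (r : ℤ) := Int.natCast_dvd_natCast.2 (hrv ▸ dvd_mul_left v g)
      have := hcr.isUnit_of_dvd' hd hvr
      rw [Int.isUnit_iff_natAbs_eq, Int.natAbs_natCast] at this
      omega
  · refine card_fibre_le q g u v hqu hu hco (-k) _ (fun p hp => ?_) (fun p hp => ?_)
    · exact ((mem_pairSet hq hr).1 (Finset.mem_filter.1 (Finset.mem_filter.1 hp).1).1).1
    · rw [← (Finset.mem_filter.1 hp).2]; ring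

lemma eq_two_pow_level_le {q k : ℕ} (hq : 0 < q) (h : level q = k) :
    2 ^ k ≤ q ∧ q < 2 ^ (k + 1) := by
  subst h
  exact ⟨Nat.pow_log_le_self 2 hq.ne', Nat.lt_pow_succ_log_self (by norm_num) q⟩

/-- Weight used in the tail bound. -/
noncomputable def wt (q : ℕ) : ℝ := bigPrimeRatio 0 q ^ 4

lemma one_le_wt (q : ℕ) : 1 ≤ wt q := one_le_pow₀ (one_le_bigPrimeRatio 0 q)

lemma wt_mul_le {d u : ℕ} (hd : 0 < d) (hu : 0 < u) : wt (d * u) ≤ wt d * wt u := by
  unfold wt
  rw [← mul_pow]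
  refine pow_le_pow_left₀ (le_trans zero_le_one (one_le_bigPrimeRatio _ _)) ?_ 4
  unfold bigPrimeRatio
  rw [Nat.primeFactors_mul hd.ne' hu.ne', Finset.filter_union]
  rw [← Finset.prod_union_inter (s₁ := d.primeFactors.filter _) (s₂ := u.primeFactors.filter _)]
  refine le_mul_of_one_le_right (Finset.prod_nonneg fun p hp => ?_)
    (Finset.one_le_prod fun p hp => one_le_ratio (Nat.prime_of_mem_primeFactors
      (Finset.mem_of_mem_filter _ (Finset.mem_of_mem_inter_left hp))))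
  have : p.Prime := by
    rcases Finset.mem_union.1 hp with h | h <;>
      exact Nat.prime_of_mem_primeFactors (Finset.mem_of_mem_filter _ h)
  exact le_trans zero_le_one (one_le_ratio this)

lemma sum_offMajor_le (γ : ℝ) (l d : ℕ) (hd : 0 < d) {η₀ : ℝ} (hη : 0 ≤ η₀) (V : Finset ℕ)
    (f : ℕ → ℤ) (hf : Set.InjOn f V) (hfb : ∀ v ∈ V, |(f v : ℝ)| ≤ (2 : ℝ) ^ (l + 1) / d) :
    ∑ v ∈ V, ((offMajor γ (approx γ l).num (approx γ l).den (η₀ / d) (f v)).card : ℝ)
      ≤ 16 * (2 : ℝ) ^ l * η₀ / (d : ℝ) ^ 2 + 8 * (2 : ℝ) ^ ((l + 1) / 2) * (η₀ + 1) / d := by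
  set A := (approx γ l).num
  set B := (approx γ l).den with hB
  have hB0 : 0 < B := (approx γ l).pos
  have hd' : (0 : ℝ) < d := by exact_mod_cast hd
  obtain ⟨h1, h2⟩ := approx_spec γ l
  set K : ℝ := (2 : ℝ) ^ ((l + 1) / 2) with hK
  have hK0 : 0 < K := by positivity
  have h2' : (B : ℝ) ≤ K := by rw [hK]; exact_mod_cast h2
  have hRK : (2 : ℝ) ^ l ≤ K * K := by
    rw [hK, ← pow_add]
    exact pow_le_pow_right₀ one_le_two (by omega)
  set S : Finset (ℤ × ℤ) := (V.sigma fun v => offMajor γ A B (η₀ / d) (f v)).image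
    (fun p => (f p.1, p.2)) with hS
  have hcard : S.card = ∑ v ∈ V, (offMajor γ A B (η₀ / d) (f v)).card := by
    rw [hS, Finset.card_image_of_injOn, Finset.card_sigma]
    rintro ⟨a, b⟩ ha ⟨a', b'⟩ ha' he
    simp only [Finset.mem_coe, Finset.mem_sigma] at ha ha'
    simp only [Prod.mk.injEq] at he
    obtain rfl := hf ha.1 ha'.1 he.1
    rw [he.2]
  have := lattice_card A B hB0 (Rat.isCoprime_num_den _) γ (η₀ / d) ((2 : ℝ) ^ (l + 1) / d)
    (by positivity) (by positivity) S (fun p hp => by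
      obtain ⟨⟨v, n⟩, hvn, rfl⟩ := Finset.mem_image.1 hp
      obtain ⟨hv, hn⟩ := Finset.mem_sigma.1 hvn
      rw [offMajor, Finset.mem_filter, mem_intIoo] at hn
      refine ⟨hfb v hv, hn.2, ?_⟩
      rw [abs_lt]
      constructor <;> linarith [hn.1.1, hn.1.2])
  rw [hcard] at this
  push_cast at this
  refine this.trans ?_
  have hβ : |(B : ℝ) * γ - A| * (2 : ℝ) ^ l ≤ K := by
    have h3 : |(B : ℝ) * γ - A| ≤ 1 / K :=
      h1.trans (one_div_le_one_div_of_le hK0 (by linarith))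
    calc _ ≤ 1 / K * (K * K) := mul_le_mul h3 hRK (by positivity) (by positivity)
      _ = K := by field_simp
  have e1 : 8 * ((2 : ℝ) ^ (l + 1) / d) * (η₀ / d) = 16 * (2 : ℝ) ^ l * η₀ / (d : ℝ) ^ 2 := by
    rw [pow_succ]; field_simp; ring
  have e2 : 4 * (B : ℝ) * (η₀ / d) + 4 * |(B : ℝ) * γ - A| * ((2 : ℝ) ^ (l + 1) / d)
      ≤ 8 * K * (η₀ + 1) / d := by
    rw [mul_div_assoc', mul_div_assoc', ← add_div]
    refine div_le_div_of_nonneg_right ?_ hd'.le
    have := mul_le_mul_of_nonneg_right h2' hη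
    rw [pow_succ]
    nlinarith
  linarith

/-- The tail sum with a weight on one of the two variables. -/
noncomputable def tailPairs (k l : ℕ) (D : ℝ) (A A' : Finset ℕ) : Finset (ℕ × ℕ) :=
  (A ×ˢ A').filter (fun p => p.1 < p.2 ∧ D < (Nat.gcd p.1 p.2 : ℝ) ∧ p.1 < 2 ^ (k + 1) ∧
    p.2 < 2 ^ (l + 1))

/-- Summand of the tail sum. -/
noncomputable def tailTerm (γ η₀ : ℝ) (l : ℕ) (p : ℕ × ℕ) : ℝ :=
  (Nat.gcd p.1 p.2 : ℝ) * (offMajor γ (approx γ l).num (approx γ l).den (η₀ / Nat.gcd p.1 p.2)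
    ((p.2 / Nat.gcd p.1 p.2 : ℕ) - (p.1 / Nat.gcd p.1 p.2 : ℕ))).card

/-- The comparison quantity for the tail sum. -/
noncomputable def tailBound (η₀ D : ℝ) (l : ℕ) : ℝ :=
  (2 : ℝ) ^ l * η₀ / D + (2 : ℝ) ^ ((l + 1) / 2) * (η₀ + 1) * ((l : ℝ) + 2)

lemma sum_wt_le (N : ℕ) : ∑ n ∈ Finset.Ioc 0 N, wt n ≤ momentConst * N :=
  sum_bigPrimeRatio_pow_le 0 4 (Or.inr le_rfl) N

lemma tail_d_sum_le (l : ℕ) {η₀ D : ℝ} (hη : 0 ≤ η₀) (hD : 0 < D) :
    ∑ d ∈ (Finset.Ioc 0 (2 ^ (l + 1))).filter (fun d : ℕ => D < (d : ℝ)),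
      wt d * (16 * (2 : ℝ) ^ l * η₀ / (d : ℝ) ^ 2 +
        8 * (2 : ℝ) ^ ((l + 1) / 2) * (η₀ + 1) / d)
      ≤ 32 * momentConst * tailBound η₀ D l := by
  set T := (Finset.Ioc 0 (2 ^ (l + 1))).filter (fun d : ℕ => D < (d : ℝ)) with hT
  set K : ℝ := (2 : ℝ) ^ ((l + 1) / 2) with hK
  have h1 : ∑ d ∈ T, wt d / (d : ℝ) ^ 2 ≤ momentConst * (2 / D) :=
    sum_bigPrimeRatio_pow_div_sq_le 0 4 (Or.inr le_rfl) T D hD
      (fun n hn => (Finset.mem_filter.1 hn).2)
  have h2 : ∑ d ∈ T, wt d / (d : ℝ) ≤ momentConst * ((l : ℝ) + 2) := by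
    refine (Finset.sum_le_sum_of_subset_of_nonneg (Finset.filter_subset _ _) fun d _ _ => ?_).trans
      ((sum_bigPrimeRatio_pow_div_le 0 4 (Or.inr le_rfl) (2 ^ (l + 1))).trans ?_)
    · have := one_le_wt d
      positivity
    · refine mul_le_mul_of_nonneg_left ?_ momentConst_pos.le
      push_cast
      rw [Real.log_pow]
      push_cast
      have := Real.log_two_lt_d9
      nlinarith [Nat.cast_nonneg (α := ℝ) l]
  calc _ = 16 * (2 : ℝ) ^ l * η₀ * ∑ d ∈ T, wt d / (d : ℝ) ^ 2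
        + 8 * K * (η₀ + 1) * ∑ d ∈ T, wt d / (d : ℝ) := by
        rw [Finset.mul_sum, Finset.mul_sum, ← Finset.sum_add_distrib]
        exact Finset.sum_congr rfl fun d _ => by ring
    _ ≤ 16 * (2 : ℝ) ^ l * η₀ * (momentConst * (2 / D))
        + 8 * K * (η₀ + 1) * (momentConst * ((l : ℝ) + 2)) := by
        refine add_le_add (mul_le_mul_of_nonneg_left h1 (by positivity))
          (mul_le_mul_of_nonneg_left h2 (by positivity))
    _ ≤ _ := by
        unfold tailBound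
        have : 0 ≤ momentConst * (K * (η₀ + 1) * ((l : ℝ) + 2)) := by
          have := momentConst_pos; positivity
        rw [← hK]
        have e : 16 * (2 : ℝ) ^ l * η₀ * (momentConst * (2 / D))
            = 32 * momentConst * ((2 : ℝ) ^ l * η₀ / D) := by ring
        linarith

/-- Generic estimate: weight on one coordinate `sel`, of size at most `2 ^ (n + 1)`. -/
lemma tail_weighted_le (γ : ℝ) (k l : ℕ) {η₀ D : ℝ} (hη : 0 ≤ η₀) (hD : 0 < D)
    (A A' : Finset ℕ) (hA : ∀ q ∈ A, 0 < q) :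
    (∑ p ∈ tailPairs k l D A A', wt p.1 * tailTerm γ η₀ l p
        ≤ 64 * momentConst ^ 2 * (2 : ℝ) ^ k * tailBound η₀ D l) ∧
      (∑ p ∈ tailPairs k l D A A', wt p.2 * tailTerm γ η₀ l p
        ≤ 64 * momentConst ^ 2 * (2 : ℝ) ^ l * tailBound η₀ D l) := by
  set T := (Finset.Ioc 0 (2 ^ (l + 1))).filter (fun d : ℕ => D < (d : ℝ)) with hT
  set I : ℕ → ℕ → Finset ℕ := fun n d => Finset.Ioc 0 (2 ^ (n + 1) / d) with hI
  set G : ℕ → ℕ → ℕ → ℝ := fun d u v => if u < v then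
    ((offMajor γ (approx γ l).num (approx γ l).den (η₀ / d) ((v : ℤ) - u)).card : ℝ) else 0 with hG
  set Φ : ℕ × ℕ → ℕ × ℕ × ℕ := fun p =>
    (Nat.gcd p.1 p.2, p.1 / Nat.gcd p.1 p.2, p.2 / Nat.gcd p.1 p.2) with hΦ
  set Box : Finset (ℕ × ℕ × ℕ) :=
    (T ×ˢ (Finset.Ioc 0 (2 ^ (k + 1))) ×ˢ (Finset.Ioc 0 (2 ^ (l + 1)))).filter
      (fun x => x.2.1 ∈ I k x.1 ∧ x.2.2 ∈ I l x.1) with hBox
  have hkey : ∀ W : ℕ × ℕ × ℕ → ℝ, (∀ x, 0 ≤ W x) →
      ∑ p ∈ tailPairs k l D A A', W (Φ p) * tailTerm γ η₀ l p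
        ≤ ∑ d ∈ T, ∑ u ∈ I k d, ∑ v ∈ I l d, W (d, u, v) * ((d : ℝ) * G d u v) := by
    intro W hW
    have hprops : ∀ p ∈ tailPairs k l D A A', 0 < Nat.gcd p.1 p.2 ∧ Φ p ∈ Box ∧
        tailTerm γ η₀ l p = ((Φ p).1 : ℝ) * G (Φ p).1 (Φ p).2.1 (Φ p).2.2 ∧
        p = ((Φ p).1 * (Φ p).2.1, (Φ p).1 * (Φ p).2.2) := by
      intro p hp
      obtain ⟨hpm, hlt, hDp, hk, hl⟩ := Finset.mem_filter.1 hp
      have hq : 0 < p.1 := hA _ (Finset.mem_product.1 hpm).1
      have hr : 0 < p.2 := hq.trans hlt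
      set g := Nat.gcd p.1 p.2 with hg
      have hg0 : 0 < g := Nat.gcd_pos_of_pos_left _ hq
      have e1 : g * (p.1 / g) = p.1 := Nat.mul_div_cancel' (Nat.gcd_dvd_left _ _)
      have e2 : g * (p.2 / g) = p.2 := Nat.mul_div_cancel' (Nat.gcd_dvd_right _ _)
      have hu : 0 < p.1 / g := Nat.div_pos (Nat.le_of_dvd hq (Nat.gcd_dvd_left _ _)) hg0
      have hv : 0 < p.2 / g := Nat.div_pos (Nat.le_of_dvd hr (Nat.gcd_dvd_right _ _)) hg0
      have huv : p.1 / g < p.2 / g := by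
        by_contra h
        have := Nat.mul_le_mul_left g (not_lt.1 h)
        omega
      refine ⟨hg0, ?_, ?_, ?_⟩
      · simp only [hBox, hΦ, hT, hI, ← hg, Finset.mem_filter, Finset.mem_product, Finset.mem_Ioc]
        have : g ≤ p.1 := Nat.le_of_dvd hq (Nat.gcd_dvd_left _ _)
        have hu' : p.1 / g ≤ p.1 := Nat.div_le_self _ _
        have hv' : p.2 / g ≤ p.2 := Nat.div_le_self _ _
        have := Nat.div_le_div_right (c := g) hk.le
        have := Nat.div_le_div_right (c := g) hl.le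
        exact ⟨⟨⟨⟨hg0, by omega⟩, hDp⟩, ⟨hu, by omega⟩, hv, by omega⟩, ⟨hu, by omega⟩, hv, by omega⟩
      · simp only [hG, hΦ, ← hg, if_pos huv]
        rfl
      · simp only [hΦ, ← hg, e1, e2, Prod.mk.eta]
    have hinj : Set.InjOn Φ (tailPairs k l D A A' : Set (ℕ × ℕ)) := by
      intro p hp p' hp' he
      rw [(hprops p hp).2.2.2, (hprops p' hp').2.2.2, he]
    calc ∑ p ∈ tailPairs k l D A A', W (Φ p) * tailTerm γ η₀ l p
        = ∑ x ∈ (tailPairs k l D A A').image Φ, W x * ((x.1 : ℝ) * G x.1 x.2.1 x.2.2) := by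
          rw [Finset.sum_image hinj]
          exact Finset.sum_congr rfl fun p hp => by rw [(hprops p hp).2.2.1]
      _ ≤ ∑ x ∈ Box, W x * ((x.1 : ℝ) * G x.1 x.2.1 x.2.2) := by
          refine Finset.sum_le_sum_of_subset_of_nonneg
            (Finset.image_subset_iff.2 fun p hp => (hprops p hp).2.1) (fun x _ _ => ?_)
          refine mul_nonneg (hW x) (mul_nonneg (Nat.cast_nonneg _) ?_)
          simp only [hG]; split_ifs <;> positivity
      _ = _ := by
          rw [hBox, Finset.sum_filter, Finset.sum_product]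
          refine Finset.sum_congr rfl fun d hd => ?_
          rw [Finset.sum_product]
          have hdpos : 0 < d := (Finset.mem_Ioc.1 (Finset.mem_filter.1 hd).1).1
          have hsub : ∀ n, I n d ⊆ Finset.Ioc 0 (2 ^ (n + 1)) := fun n x hx => by
            simp only [hI, Finset.mem_Ioc] at hx ⊢
            exact ⟨hx.1, hx.2.trans (Nat.div_le_self _ _)⟩
          refine Eq.symm (Finset.sum_subset_zero_on_sdiff (hsub k) ?_ fun u hu => ?_)
          · intro u hu
            refine Finset.sum_eq_zero fun v _ => ?_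
            rw [if_neg]
            exact fun h => (Finset.mem_sdiff.1 hu).2 h.1
          · refine Finset.sum_subset_zero_on_sdiff (hsub l) ?_ fun v hv => ?_
            · intro v hv
              rw [if_neg]
              exact fun h => (Finset.mem_sdiff.1 hv).2 h.2
            · rw [if_pos ⟨hu, hv⟩]
  have hIle : ∀ n d v : ℕ, 0 < d → v ∈ I n d → (v : ℝ) ≤ (2 : ℝ) ^ (n + 1) / d := by
    intro n d v hd hv
    have : ((2 ^ (n + 1) / d : ℕ) : ℝ) ≤ ((2 ^ (n + 1) : ℕ) : ℝ) / d := Nat.cast_div_le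
    push_cast at this
    exact le_trans (by exact_mod_cast (Finset.mem_Ioc.1 hv).2) this
  set c : ℕ → ℝ := fun d => 16 * (2 : ℝ) ^ l * η₀ / (d : ℝ) ^ 2 +
        8 * (2 : ℝ) ^ ((l + 1) / 2) * (η₀ + 1) / d with hc
  have hc0 : ∀ d, 0 ≤ c d := fun d => by simp only [hc]; positivity
  have hwsum : ∀ n d : ℕ, 0 < d → ∑ u ∈ I n d, wt (d * u)
      ≤ wt d * (momentConst * ((2 : ℝ) ^ (n + 1) / d)) := by
    intro n d hd
    refine (Finset.sum_le_sum fun u hu => wt_mul_le hd (Finset.mem_Ioc.1 hu).1).trans ?_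
    rw [← Finset.mul_sum]
    refine mul_le_mul_of_nonneg_left ((sum_wt_le _).trans ?_) (le_trans zero_le_one (one_le_wt d))
    refine mul_le_mul_of_nonneg_left ?_ momentConst_pos.le
    have : ((2 ^ (n + 1) / d : ℕ) : ℝ) ≤ ((2 ^ (n + 1) : ℕ) : ℝ) / d := Nat.cast_div_le
    push_cast at this
    exact this
  have hfin : ∀ n : ℕ, ∑ d ∈ T, (d : ℝ) * (wt d * (momentConst * ((2 : ℝ) ^ (n + 1) / d)) * c d)
      ≤ 64 * momentConst ^ 2 * (2 : ℝ) ^ n * tailBound η₀ D l := by
    intro n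
    have h := mul_le_mul_of_nonneg_left (tail_d_sum_le l hη hD)
      (by have := momentConst_pos; positivity : 0 ≤ momentConst * (2 : ℝ) ^ (n + 1))
    rw [Finset.mul_sum] at h
    refine le_trans (le_of_eq (Finset.sum_congr rfl fun d hd => ?_)) (h.trans (le_of_eq ?_))
    · have : (d : ℝ) ≠ 0 := by
        exact_mod_cast (Finset.mem_Ioc.1 (Finset.mem_filter.1 hd).1).1.ne'
      simp only [hc]
      field_simp
    · rw [pow_succ]; ring
  constructor
  · refine le_trans (le_of_eq (Finset.sum_congr rfl fun p hp => ?_))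
      ((hkey (fun x => wt (x.1 * x.2.1)) (fun x => le_trans zero_le_one (one_le_wt _))).trans ?_)
    · simp only [hΦ, Nat.mul_div_cancel' (Nat.gcd_dvd_left p.1 p.2)]
    refine (Finset.sum_le_sum fun d hd => ?_).trans (hfin k)
    have hdpos : 0 < d := (Finset.mem_Ioc.1 (Finset.mem_filter.1 hd).1).1
    calc ∑ u ∈ I k d, ∑ v ∈ I l d, wt (d * u) * ((d : ℝ) * G d u v)
        ≤ ∑ u ∈ I k d, wt (d * u) * ((d : ℝ) * c d) := by
          refine Finset.sum_le_sum fun u _ => ?_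
          rw [← Finset.mul_sum, ← Finset.mul_sum]
          refine mul_le_mul_of_nonneg_left (mul_le_mul_of_nonneg_left ?_ (Nat.cast_nonneg _))
            (le_trans zero_le_one (one_le_wt _))
          simp only [hG]
          rw [← Finset.sum_filter]
          refine sum_offMajor_le γ l d hdpos hη _ (fun v => (v : ℤ) - u)
            (fun v _ v' _ h => by simpa using h) (fun v hv => ?_)
          obtain ⟨hv1, hv2⟩ := Finset.mem_filter.1 hv
          have h1 := hIle l d v hdpos hv1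
          have h2 : (u : ℝ) ≤ v := by exact_mod_cast hv2.le
          push_cast
          rw [abs_of_nonneg (by linarith)]
          linarith [Nat.cast_nonneg (α := ℝ) u]
      _ = (∑ u ∈ I k d, wt (d * u)) * ((d : ℝ) * c d) := by rw [Finset.sum_mul]
      _ ≤ (wt d * (momentConst * ((2 : ℝ) ^ (k + 1) / d))) * ((d : ℝ) * c d) :=
          mul_le_mul_of_nonneg_right (hwsum k d hdpos) (mul_nonneg (Nat.cast_nonneg _) (hc0 d))
      _ = _ := by ring
  · refine le_trans (le_of_eq (Finset.sum_congr rfl fun p hp => ?_))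
      ((hkey (fun x => wt (x.1 * x.2.2)) (fun x => le_trans zero_le_one (one_le_wt _))).trans ?_)
    · simp only [hΦ, Nat.mul_div_cancel' (Nat.gcd_dvd_right p.1 p.2)]
    refine (Finset.sum_le_sum fun d hd => ?_).trans (hfin l)
    have hdpos : 0 < d := (Finset.mem_Ioc.1 (Finset.mem_filter.1 hd).1).1
    rw [Finset.sum_comm]
    calc ∑ v ∈ I l d, ∑ u ∈ I k d, wt (d * v) * ((d : ℝ) * G d u v)
        ≤ ∑ v ∈ I l d, wt (d * v) * ((d : ℝ) * c d) := by
          refine Finset.sum_le_sum fun v hv => ?_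
          rw [← Finset.mul_sum, ← Finset.mul_sum]
          refine mul_le_mul_of_nonneg_left (mul_le_mul_of_nonneg_left ?_ (Nat.cast_nonneg _))
            (le_trans zero_le_one (one_le_wt _))
          simp only [hG]
          rw [← Finset.sum_filter]
          refine sum_offMajor_le γ l d hdpos hη _ (fun u => (v : ℤ) - u)
            (fun u _ u' _ h => by simpa using h) (fun u hu => ?_)
          obtain ⟨_, hu2⟩ := Finset.mem_filter.1 hu
          have h1 := hIle l d v hdpos hv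
          have h2 : (u : ℝ) ≤ v := by exact_mod_cast hu2.le
          push_cast
          rw [abs_of_nonneg (by linarith)]
          linarith [Nat.cast_nonneg (α := ℝ) u]
      _ = (∑ v ∈ I l d, wt (d * v)) * ((d : ℝ) * c d) := by rw [Finset.sum_mul]
      _ ≤ (wt d * (momentConst * ((2 : ℝ) ^ (l + 1) / d))) * ((d : ℝ) * c d) :=
          mul_le_mul_of_nonneg_right (hwsum l d hdpos) (mul_nonneg (Nat.cast_nonneg _) (hc0 d))
      _ = _ := by ring

end Vale.Agent.P028
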