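import Mathlib
import Vale.Agent.P028.Tail

/-!
# The second moment bound
-/

namespace Vale.Agent.P028

open Finset MeasureTheory

open scoped Classical

/-- The parameter `z` of the sieve for two levels. -/
def zPar (k l : ℕ) : ℕ := (l - k) / 16

/-- Excess of the overlap over the main term. -/
noncomputable def excess (γ : ℝ) (δ : ℕ → ℝ) (q r : ℕ) : ℝ :=
  max 0 (overlap γ δ q r - mainTerm γ δ (zPar (level q) (level r)) q r)

/-- The decay weight attached to a class. -/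
noncomputable def decay (c : ℕ × ℕ) : ℝ := rp (-(c.1 : ℝ) / 16) * rp (-(c.2 : ℝ) / 2)

/-- `q` belongs to level `k` and class `c`. -/
structure InClass (γ : ℝ) (δ : ℕ → ℝ) (k : ℕ) (c : ℕ × ℕ) (q : ℕ) : Prop where
  pos : 0 < q
  lev : level q = k
  radius : δ q ≤ rp (-(c.1 : ℝ) - 2 * k)
  weight : rp (4 * (c.2 : ℝ)) ≤ wt q
  massLow : rp (-(c.1 : ℝ) - c.2 - k) / 8 ≤ mass γ δ q

lemma mainTerm_nonneg (γ : ℝ) {δ : ℕ → ℝ} (hδ : SmallRadii δ) (z q r : ℕ) :
    0 ≤ mainTerm γ δ z q r := by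
  have := mass_nonneg (fun q => (hδ.2 q).1) γ q
  have := mass_nonneg (fun q => (hδ.2 q).1) γ r
  have := one_le_bigPrimeRatio z q
  have := one_le_bigPrimeRatio z r
  unfold mainTerm
  positivity

lemma excess_le_of_main (γ : ℝ) {δ : ℕ → ℝ} (hδ : SmallRadii δ) {q r : ℕ} (hq : 0 < q)
    (hr : 0 < r) :
    excess γ δ q r ≤ 2 * 4 ^ zPar (level q) (level r) * min (δ q) (δ r) * Nat.gcd q r := by
  have h := overlap_le_main γ hδ hq hr (zPar (level q) (level r))
  have : 0 ≤ min (δ q) (δ r) := le_min (hδ.2 q).1 (hδ.2 r).1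
  exact max_le (by positivity) (by linarith)

lemma excess_le_overlap (γ : ℝ) {δ : ℕ → ℝ} (hδ : SmallRadii δ) (q r : ℕ) :
    excess γ δ q r ≤ overlap γ δ q r :=
  max_le measureReal_nonneg (by linarith [mainTerm_nonneg γ hδ (zPar (level q) (level r)) q r])

lemma four_pow_zPar_le {k l : ℕ} (hkl : k ≤ l) :
    (4 : ℝ) ^ zPar k l ≤ rp (((l : ℝ) - k) / 8) := by
  have h1 : 16 * ((zPar k l : ℕ) : ℝ) ≤ (l : ℝ) - k := by
    have : 16 * zPar k l + k ≤ l := by unfold zPar; omega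
    have : 16 * (zPar k l : ℝ) + k ≤ l := by exact_mod_cast this
    linarith
  rw [show (4 : ℝ) = 2 ^ 2 by norm_num, ← pow_mul, ← rp_natCast]
  refine rp_mono ?_
  push_cast
  linarith

lemma rp_min_le (a b : ℝ) : min (rp a) (rp b) ≤ rp ((a + 7 * b) / 8) := by
  rcases le_total a b with h | h
  · exact (min_le_left _ _).trans (rp_mono (by linarith))
  · exact (min_le_right _ _).trans (rp_mono (by linarith))

lemma card_class_le (γ : ℝ) (δ : ℕ → ℝ) (k : ℕ) (c : ℕ × ℕ) (A : Finset ℕ)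
    (hA : ∀ q ∈ A, InClass γ δ k c q) :
    (A.card : ℝ) ≤ 8 * rp ((c.1 : ℝ) + c.2 + k) * ∑ q ∈ A, mass γ δ q := by
  have h1 : (A.card : ℝ) * (rp (-(c.1 : ℝ) - c.2 - k) / 8) ≤ ∑ q ∈ A, mass γ δ q := by
    refine le_trans (le_of_eq ?_) (Finset.sum_le_sum fun q hq => (hA q hq).massLow)
    rw [Finset.sum_const, nsmul_eq_mul]
  have e : rp (-(c.1 : ℝ) - c.2 - k) * rp ((c.1 : ℝ) + c.2 + k) = 1 := by
    rw [← rp_add, ← rp_zero]; congr 1; ring
  have h2 := mul_le_mul_of_nonneg_left h1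
    (by have := rp_pos ((c.1 : ℝ) + c.2 + k); positivity : 0 ≤ 8 * rp ((c.1 : ℝ) + c.2 + k))
  refine le_trans (le_of_eq ?_) h2
  linear_combination (-(A.card : ℝ)) * e

/-- The common bound on the radii of two classes. -/
noncomputable def radBound (c : ℕ × ℕ) (k : ℕ) : ℝ := rp (-(c.1 : ℝ) - 2 * k)

/-- The scale parameter of the tail. -/
noncomputable def etaBound (c c' : ℕ × ℕ) (k l : ℕ) : ℝ :=
  4 * rp ((k : ℝ) + l) * (radBound c k + radBound c' l)

lemma etaBound_nonneg (c c' : ℕ × ℕ) (k l : ℕ) : 0 ≤ etaBound c c' k l := by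
  have := rp_pos ((k : ℝ) + l)
  have := rp_pos (-(c.1 : ℝ) - 2 * k)
  have := rp_pos (-(c'.1 : ℝ) - 2 * l)
  unfold etaBound radBound
  positivity

lemma decay_pos (c : ℕ × ℕ) : 0 < decay c := mul_pos (rp_pos _) (rp_pos _)

lemma gcd_split (γ : ℝ) {δ : ℕ → ℝ} (hδ : SmallRadii δ) (k l : ℕ)
    (c c' : ℕ × ℕ) (A A' : Finset ℕ)
    (hA : ∀ q ∈ A, InClass γ δ k c q) (hA' : ∀ r ∈ A', InClass γ δ l c' r) (D : ℝ) (hD : 0 < D) :
    ∑ p ∈ (A ×ˢ A').filter (fun p => p.1 < p.2), excess γ δ p.1 p.2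
      ≤ 2 * (4 : ℝ) ^ zPar k l * min (radBound c k) (radBound c' l) * D * (A.card * A'.card)
        + 2 * min (radBound c k) (radBound c' l) *
          ∑ p ∈ tailPairs k l D A A', tailTerm γ (etaBound c c' k l) l p := by
  set a := radBound c k with ha
  set b := radBound c' l with hb
  set m₀ := min a b with hm₀
  have ha0 : 0 < a := rp_pos _
  have hb0 : 0 < b := rp_pos _
  have hm0 : 0 < m₀ := lt_min ha0 hb0
  set η₀ := etaBound c c' k l with hη₀
  set Z := ((4 : ℝ) ^ zPar k l) with hZ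
  have hZ0 : 0 ≤ Z := by positivity
  have hb2 : ∀ p ∈ (A ×ˢ A').filter (fun p => p.1 < p.2), excess γ δ p.1 p.2
      ≤ 2 * Z * m₀ * D + 2 * m₀ * (if p ∈ tailPairs k l D A A' then tailTerm γ η₀ l p else 0) := by
    intro p hp
    obtain ⟨hpp, hlt⟩ := Finset.mem_filter.1 hp
    obtain ⟨hp1, hp2⟩ := Finset.mem_product.1 hpp
    have c1 := hA _ hp1
    have c2 := hA' _ hp2
    have hmin : min (δ p.1) (δ p.2) ≤ m₀ := min_le_min c1.radius c2.radius
    have hmin0 : 0 ≤ min (δ p.1) (δ p.2) := le_min (hδ.2 _).1 (hδ.2 _).1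
    have hk := eq_two_pow_level_le c1.pos c1.lev
    have hl := eq_two_pow_level_le c2.pos c2.lev
    by_cases hD' : D < (Nat.gcd p.1 p.2 : ℝ)
    · have hmem : p ∈ tailPairs k l D A A' :=
        Finset.mem_filter.2 ⟨hpp, hlt, hD', hk.2, hl.2⟩
      rw [if_pos hmem]
      have hη : (δ p.1 + δ p.2) * p.1 * p.2 ≤ η₀ := by
        have hq2 : (p.1 : ℝ) ≤ rp (1 + (k : ℝ)) := by
          rw [show (1 : ℝ) + k = ((k + 1 : ℕ) : ℝ) by push_cast; ring, rp_natCast]
          exact_mod_cast hk.2.le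
        have hr2 : (p.2 : ℝ) ≤ rp (1 + (l : ℝ)) := by
          rw [show (1 : ℝ) + l = ((l + 1 : ℕ) : ℝ) by push_cast; ring, rp_natCast]
          exact_mod_cast hl.2.le
        have hsum : δ p.1 + δ p.2 ≤ a + b := add_le_add c1.radius c2.radius
        calc (δ p.1 + δ p.2) * p.1 * p.2
            ≤ (a + b) * rp (1 + (k : ℝ)) * rp (1 + (l : ℝ)) :=
              mul_le_mul (mul_le_mul hsum hq2 (Nat.cast_nonneg _) (by positivity)) hr2
                (Nat.cast_nonneg _) (by have := rp_pos (1 + (k : ℝ)); positivity)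
          _ = η₀ := by
              rw [hη₀, etaBound, rp_add 1 (k : ℝ), rp_add 1 (l : ℝ), rp_add (k : ℝ) l]
              rw [show rp 1 = 2 from Real.rpow_one 2]
              ring
      have h1 := (excess_le_overlap γ hδ p.1 p.2).trans (overlap_le_tail γ hδ c1.pos hlt hη)
      have hA2 : numA γ p.2 = (approx γ l).num := by rw [numA, c2.lev]
      have hB2 : denB γ p.2 = (approx γ l).den := by rw [denB, c2.lev]
      rw [hA2, hB2] at h1
      have hT0 : 0 ≤ tailTerm γ η₀ l p := by unfold tailTerm; positivity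
      have : 2 * min (δ p.1) (δ p.2) * tailTerm γ η₀ l p ≤ 2 * m₀ * tailTerm γ η₀ l p :=
        mul_le_mul_of_nonneg_right (by linarith) hT0
      have : 0 ≤ 2 * Z * m₀ * D := by positivity
      unfold tailTerm at *
      linarith
    · have h1 := excess_le_of_main γ hδ c1.pos c2.pos
      rw [c1.lev, c2.lev, ← hZ] at h1
      have hnot : p ∉ tailPairs k l D A A' := fun h => hD' (Finset.mem_filter.1 h).2.2.1
      rw [if_neg hnot, mul_zero, add_zero]
      refine h1.trans (mul_le_mul (mul_le_mul_of_nonneg_left hmin (by positivity))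
        (not_lt.1 hD') (Nat.cast_nonneg _) (by positivity))
  refine (Finset.sum_le_sum hb2).trans ?_
  rw [Finset.sum_add_distrib, Finset.sum_const, nsmul_eq_mul, ← Finset.mul_sum, ← Finset.sum_filter]
  refine add_le_add ?_ (mul_le_mul_of_nonneg_left ?_ (by positivity))
  · rw [mul_comm]
    refine mul_le_mul_of_nonneg_left ?_ (by positivity)
    have := Finset.card_filter_le (A ×ˢ A') (fun p => p.1 < p.2)
    rw [Finset.card_product] at this
    exact_mod_cast this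
  · refine Finset.sum_le_sum_of_subset_of_nonneg (fun p hp => (Finset.mem_filter.1 hp).2) ?_
    intro p _ _
    unfold tailTerm; positivity

lemma tail_geom_le (γ : ℝ) {δ : ℕ → ℝ} (k l : ℕ) (c c' : ℕ × ℕ) (A A' : Finset ℕ)
    (hA : ∀ q ∈ A, InClass γ δ k c q) (hA' : ∀ r ∈ A', InClass γ δ l c' r)
    {η₀ D : ℝ} (hη0 : 0 ≤ η₀) (hD : 0 < D) :
    ∑ p ∈ tailPairs k l D A A', tailTerm γ η₀ l p
      ≤ 64 * momentConst ^ 2 * rp (-(2 * ((c.2 : ℝ) + c'.2)) + ((k : ℝ) + l) / 2) *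
        tailBound η₀ D l := by
  obtain ⟨t, s⟩ := c
  obtain ⟨t', s'⟩ := c'
  set U := 64 * momentConst ^ 2 with hU
  have hM := momentConst_pos
  obtain ⟨hrow, hcol⟩ := tail_weighted_le γ k l hη0 hD A A' fun q hq => (hA q hq).pos
  set X := ∑ p ∈ tailPairs k l D A A', tailTerm γ η₀ l p with hX
  have hX0 : 0 ≤ X := Finset.sum_nonneg fun p _ => by unfold tailTerm; positivity
  have hTB : 0 ≤ tailBound η₀ D l := by unfold tailBound; positivity
  have r1 : rp (4 * (s : ℝ)) * X ≤ U * rp (k : ℝ) * tailBound η₀ D l := by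
    rw [rp_natCast, hX, Finset.mul_sum]
    refine le_trans (Finset.sum_le_sum fun p hp => ?_) hrow
    exact mul_le_mul_of_nonneg_right
      (hA _ (Finset.mem_product.1 (Finset.mem_filter.1 hp).1).1).weight
      (by unfold tailTerm; positivity)
  have r2 : rp (4 * (s' : ℝ)) * X ≤ U * rp (l : ℝ) * tailBound η₀ D l := by
    rw [rp_natCast, hX, Finset.mul_sum]
    refine le_trans (Finset.sum_le_sum fun p hp => ?_) hcol
    exact mul_le_mul_of_nonneg_right
      (hA' _ (Finset.mem_product.1 (Finset.mem_filter.1 hp).1).2).weight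
      (by unfold tailTerm; positivity)
  set R := U * rp (-(2 * ((s : ℝ) + s')) + ((k : ℝ) + l) / 2) * tailBound η₀ D l with hR
  have hR0 : 0 ≤ R := by
    have := rp_pos (-(2 * ((s : ℝ) + s')) + ((k : ℝ) + l) / 2)
    positivity
  have hsq : X ^ 2 ≤ R ^ 2 := by
    have h := mul_le_mul r1 r2 (by have := rp_pos (4 * (s' : ℝ)); positivity)
      (by have := rp_pos (k : ℝ); positivity)
    have e1 : rp (4 * (s : ℝ)) * X * (rp (4 * (s' : ℝ)) * X)
        = rp (4 * ((s : ℝ) + s')) * X ^ 2 := by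
      rw [mul_add, rp_add]; ring
    have e2 : U * rp (k : ℝ) * tailBound η₀ D l * (U * rp (l : ℝ) * tailBound η₀ D l)
        = rp (4 * ((s : ℝ) + s')) * R ^ 2 := by
      have e3 : rp (4 * ((s : ℝ) + s')) *
          (rp (-(2 * ((s : ℝ) + s')) + ((k : ℝ) + l) / 2)) ^ 2 = rp (k : ℝ) * rp (l : ℝ) := by
        rw [pow_two, ← rp_add, ← rp_add, ← rp_add]; congr 1; ring
      rw [hR, mul_pow, mul_pow]
      linear_combination (U ^ 2 * tailBound η₀ D l ^ 2) * e3.symm
    rw [e1, e2] at h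
    exact le_of_mul_le_mul_left h (rp_pos _)
  exact (pow_le_pow_iff_left₀ hX0 hR0 (by norm_num)).1 hsq

/-- Exponent of the part with small gcd. -/
noncomputable def expOne (k l t s t' s' : ℕ) : ℝ :=
  -(5 * ((l : ℝ) - k)) / 8 + 7 * (t : ℝ) / 8 + (t' : ℝ) / 8 + s + s'

/-- Exponent of the part with large gcd. -/
noncomputable def expTwo (k l t s t' s' : ℕ) : ℝ :=
  ((l : ℝ) - k) / 2 - t - t' - 2 * ((s : ℝ) + s')

lemma exists_opt {a b : ℝ} (ha : 0 < a) (hb : 0 < b) :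
    ∃ D : ℝ, 0 < D ∧ a * D + b / D = 2 * Real.sqrt (a * b) := by
  have hx : 0 < Real.sqrt a := Real.sqrt_pos.2 ha
  have hy : 0 < Real.sqrt b := Real.sqrt_pos.2 hb
  refine ⟨Real.sqrt b / Real.sqrt a, div_pos hy hx, ?_⟩
  rw [Real.sqrt_mul ha.le]
  have ea : a = Real.sqrt a * Real.sqrt a := (Real.mul_self_sqrt ha.le).symm
  have eb : b = Real.sqrt b * Real.sqrt b := (Real.mul_self_sqrt hb.le).symm
  generalize Real.sqrt a = x at hx ea ⊢
  generalize Real.sqrt b = y at hy eb ⊢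
  subst ea; subst eb
  field_simp
  ring

lemma radBound_min_le (k l t s t' s' : ℕ) :
    min (radBound (t, s) k) (radBound (t', s') l)
      ≤ rp ((-(t : ℝ) - 2 * k + 7 * (-(t' : ℝ) - 2 * l)) / 8) :=
  rp_min_le _ _

lemma radBound_min_mul_eta_le (k l t s t' s' : ℕ) :
    min (radBound (t, s) k) (radBound (t', s') l) * etaBound (t, s) (t', s') k l
      ≤ 8 * rp (-(t : ℝ) - t' - k - l) := by
  unfold etaBound
  have e : rp ((k : ℝ) + l) * (radBound (t, s) k * radBound (t', s') l)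
      = rp (-(t : ℝ) - t' - k - l) := by
    simp only [radBound, ← rp_add]; congr 1; ring
  have ha0 : 0 < radBound (t, s) k := rp_pos _
  have hb0 : 0 < radBound (t', s') l := rp_pos _
  generalize radBound (t, s) k = a at e ha0 ⊢
  generalize radBound (t', s') l = b at e hb0 ⊢
  have h1 := mul_le_mul_of_nonneg_right (min_le_right a b) ha0.le
  have h2 := mul_le_mul_of_nonneg_right (min_le_left a b) hb0.le
  have h3 : min a b * (a + b) ≤ 2 * (a * b) := by linarith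
  have h4 := mul_le_mul_of_nonneg_left h3
    (by have := rp_pos ((k : ℝ) + l); positivity : 0 ≤ 4 * rp ((k : ℝ) + l))
  linarith

lemma small_piece (k l t s t' s' : ℕ) (hkl : k ≤ l) {nA nA' σ σ' D : ℝ} (hnA : 0 ≤ nA)
    (hnA' : 0 ≤ nA') (hσ : 0 ≤ σ) (hσ' : 0 ≤ σ') (hD : 0 ≤ D)
    (hcard : nA ≤ 8 * rp ((t : ℝ) + s + k) * σ) (hcard' : nA' ≤ 8 * rp ((t' : ℝ) + s' + l) * σ') :
    2 * (4 : ℝ) ^ zPar k l * min (radBound (t, s) k) (radBound (t', s') l) * D * (nA * nA')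
      ≤ 128 * σ * σ' * rp (expOne k l t s t' s') * D := by
  have hz := four_pow_zPar_le hkl
  have hm := radBound_min_le k l t s t' s'
  have e : rp (((l : ℝ) - k) / 8) * rp ((-(t : ℝ) - 2 * k + 7 * (-(t' : ℝ) - 2 * l)) / 8) *
      (rp ((t : ℝ) + s + k) * rp ((t' : ℝ) + s' + l)) = rp (expOne k l t s t' s') := by
    simp only [← rp_add, expOne]; congr 1; ring
  have hm0 : 0 ≤ min (radBound (t, s) k) (radBound (t', s') l) :=
    le_min (rp_pos _).le (rp_pos _).le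
  have g1 := rp_pos (((l : ℝ) - k) / 8)
  have g2 := rp_pos ((-(t : ℝ) - 2 * k + 7 * (-(t' : ℝ) - 2 * l)) / 8)
  have g3 := rp_pos ((t : ℝ) + s + k)
  generalize rp (((l : ℝ) - k) / 8) = x₁ at hz e g1
  generalize rp ((-(t : ℝ) - 2 * k + 7 * (-(t' : ℝ) - 2 * l)) / 8) = x₂ at hm e g2
  generalize rp ((t : ℝ) + s + k) = x₃ at hcard e g3
  generalize rp ((t' : ℝ) + s' + l) = x₄ at hcard' e
  generalize min (radBound (t, s) k) (radBound (t', s') l) = m at hm hm0
  have hZ : (0 : ℝ) ≤ 4 ^ zPar k l := by positivity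
  generalize (4 : ℝ) ^ zPar k l = Z at hz hZ
  have h1 : Z * m ≤ x₁ * x₂ := mul_le_mul hz hm hm0 g1.le
  have h2 : nA * nA' ≤ (8 * x₃ * σ) * (8 * x₄ * σ') :=
    mul_le_mul hcard hcard' hnA' (by positivity)
  have h3 := mul_le_mul_of_nonneg_right
    (mul_le_mul h1 h2 (mul_nonneg hnA hnA') (by positivity)) hD
  rw [← e]
  linarith

lemma tail_main_exp (k l t s t' s' : ℕ) :
    rp (-(2 * ((s : ℝ) + s')) + ((k : ℝ) + l) / 2) * rp (l : ℝ) * rp (-(t : ℝ) - t' - k - l)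
      = rp (expTwo k l t s t' s') := by
  simp only [← rp_add, expTwo]; congr 1; ring

lemma tail_minor_exp (k l t s t' s' : ℕ) (hsmall : 8 * (l - k) < l) (hkl : k ≤ l) :
    rp (-(2 * ((s : ℝ) + s')) + ((k : ℝ) + l) / 2) * rp (((l : ℝ) + 1) / 2)
        * rp (-(t : ℝ) - t' - k - l)
      ≤ rp (1 / 2) * rp (-(7 * (l : ℝ)) / 16) * (decay (t, s) * decay (t', s')) ∧
    rp (-(2 * ((s : ℝ) + s')) + ((k : ℝ) + l) / 2) * rp (((l : ℝ) + 1) / 2)
        * rp ((-(t : ℝ) - 2 * k + 7 * (-(t' : ℝ) - 2 * l)) / 8)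
      ≤ rp (1 / 2) * rp (-(7 * (l : ℝ)) / 16) * (decay (t, s) * decay (t', s')) := by
  simp only [decay, ← rp_add]
  have hk : 7 * (l : ℝ) ≤ 8 * k := by
    have : 7 * l ≤ 8 * k := by omega
    exact_mod_cast this
  have hkR : (k : ℝ) ≤ l := by exact_mod_cast hkl
  have ht := Nat.cast_nonneg (α := ℝ) t
  have ht' := Nat.cast_nonneg (α := ℝ) t'
  have hs := Nat.cast_nonneg (α := ℝ) s
  have hs' := Nat.cast_nonneg (α := ℝ) s'
  have hl0 := Nat.cast_nonneg (α := ℝ) l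
  exact ⟨rp_mono (by linarith), rp_mono (by linarith)⟩

lemma large_piece (k l t s t' s' : ℕ) (hkl : k ≤ l) (hsmall : 8 * (l - k) < l) {D : ℝ}
    (hD : 0 < D) :
    2 * min (radBound (t, s) k) (radBound (t', s') l) *
        (64 * momentConst ^ 2 * rp (-(2 * ((s : ℝ) + s')) + ((k : ℝ) + l) / 2) *
          tailBound (etaBound (t, s) (t', s') k l) D l)
      ≤ 16 * (64 * momentConst ^ 2) * rp (expTwo k l t s t' s') / D
        + 36 * (64 * momentConst ^ 2) *
          (((l : ℝ) + 2) * rp (-(7 * (l : ℝ)) / 16) * (decay (t, s) * decay (t', s'))) := by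
  have hU : 0 ≤ 64 * momentConst ^ 2 := by positivity
  have hmη := radBound_min_mul_eta_le k l t s t' s'
  have hmM := radBound_min_le k l t s t' s'
  obtain ⟨he1, he2⟩ := tail_minor_exp k l t s t' s' hsmall hkl
  have he0 := tail_main_exp k l t s t' s'
  have hK : (2 : ℝ) ^ ((l + 1) / 2) ≤ rp (((l : ℝ) + 1) / 2) := by
    rw [← rp_natCast]
    refine rp_mono ?_
    have : 2 * (((l + 1) / 2 : ℕ) : ℝ) ≤ (l : ℝ) + 1 := by
      have : 2 * ((l + 1) / 2) ≤ l + 1 := by omega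
      exact_mod_cast this
    linarith
  have h12 : rp (1 / 2) ≤ 2 := by
    calc rp (1 / 2) ≤ rp 1 := rp_mono (by norm_num)
      _ = 2 := Real.rpow_one 2
  have hdec : 0 ≤ rp (-(7 * (l : ℝ)) / 16) * (decay (t, s) * decay (t', s')) :=
    mul_nonneg (rp_pos _).le (mul_nonneg (decay_pos _).le (decay_pos _).le)
  have hm0 : 0 ≤ min (radBound (t, s) k) (radBound (t', s') l) :=
    le_min (rp_pos _).le (rp_pos _).le
  have hη0 := etaBound_nonneg (t, s) (t', s') k l
  have hl2 : (0 : ℝ) ≤ (l : ℝ) + 2 := by positivity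
  have g1 := rp_pos (-(2 * ((s : ℝ) + s')) + ((k : ℝ) + l) / 2)
  have g2 := rp_pos (l : ℝ)
  have g3 := rp_pos (((l : ℝ) + 1) / 2)
  have hK0 : (0 : ℝ) ≤ 2 ^ ((l + 1) / 2) := by positivity
  unfold tailBound
  rw [← rp_natCast l]
  generalize rp (-(2 * ((s : ℝ) + s')) + ((k : ℝ) + l) / 2) = X at he0 he1 he2 g1 ⊢
  generalize rp (((l : ℝ) + 1) / 2) = K' at he1 he2 hK g3
  generalize (2 : ℝ) ^ ((l + 1) / 2) = K at hK hK0 ⊢
  generalize rp (-(t : ℝ) - t' - k - l) = Y at he0 he1 hmη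
  generalize rp ((-(t : ℝ) - 2 * k + 7 * (-(t' : ℝ) - 2 * l)) / 8) = M₀ at he2 hmM
  generalize rp (expTwo k l t s t' s') = E at he0 ⊢
  generalize rp (-(7 * (l : ℝ)) / 16) = G₁ at he1 he2 hdec ⊢
  generalize decay (t, s) * decay (t', s') = G₂ at he1 he2 hdec ⊢
  generalize rp (1 / 2) = r₂ at he1 he2 h12
  generalize min (radBound (t, s) k) (radBound (t', s') l) = m at hmη hmM hm0 ⊢
  generalize etaBound (t, s) (t', s') k l = η at hmη hη0 ⊢
  generalize rp (l : ℝ) = R at he0 g2 ⊢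
  generalize (64 * momentConst ^ 2) = U at hU ⊢
  generalize ((l : ℝ) + 2) = L at hl2 ⊢
  have p1 : X * R * (m * η) ≤ 8 * E := by
    have := mul_le_mul_of_nonneg_left hmη (mul_pos g1 g2).le
    linarith
  have p2 : X * K * (m * η + m) ≤ 18 * (G₁ * G₂) := by
    have a0 : X * K * (m * η + m) ≤ X * K' * (m * η + m) :=
      mul_le_mul_of_nonneg_right (mul_le_mul_of_nonneg_left hK g1.le)
        (add_nonneg (mul_nonneg hm0 hη0) hm0)
    have a1 := mul_le_mul_of_nonneg_left hmη (mul_pos g1 g3).le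
    have a2 := mul_le_mul_of_nonneg_left hmM (mul_pos g1 g3).le
    have a3 := mul_le_mul_of_nonneg_right h12 hdec
    linarith
  have e : 2 * m * (U * X * (R * η / D + K * (η + 1) * L))
      = 2 * U * (X * R * (m * η)) / D + 2 * U * L * (X * K * (m * η + m)) := by ring
  rw [e]
  refine add_le_add (div_le_div_of_nonneg_right ?_ hD.le) ?_
  · have := mul_le_mul_of_nonneg_left p1 (by positivity : 0 ≤ 2 * U)
    linarith
  · have := mul_le_mul_of_nonneg_left p2 (by positivity : 0 ≤ 2 * U * L)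
    linarith

lemma exp_prod_le (k l t s t' s' : ℕ) :
    rp (expOne k l t s t' s') * rp (expTwo k l t s t' s')
      ≤ (rp (-((l : ℝ) - k) / 16) * (decay (t, s) * decay (t', s'))) ^ 2 := by
  simp only [decay, pow_two, ← rp_add, expOne, expTwo]
  refine rp_mono ?_
  have := Nat.cast_nonneg (α := ℝ) t'
  linarith

/-- The numerical optimisation. -/
lemma optimise (k l : ℕ) (hkl : k ≤ l) (hsmall : 8 * (l - k) < l) (t s t' s' : ℕ)
    (nA nA' σ σ' : ℝ) (hnA : 0 ≤ nA) (hnA' : 0 ≤ nA') (hσ0 : 0 < σ) (hσ0' : 0 < σ')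
    (hcard : nA ≤ 8 * rp ((t : ℝ) + s + k) * σ) (hcard' : nA' ≤ 8 * rp ((t' : ℝ) + s' + l) * σ') :
    ∃ D : ℝ, 0 < D ∧
      2 * (4 : ℝ) ^ zPar k l * min (radBound (t, s) k) (radBound (t', s') l) * D * (nA * nA')
        + 2 * min (radBound (t, s) k) (radBound (t', s') l) *
          (64 * momentConst ^ 2 * rp (-(2 * ((s : ℝ) + s')) + ((k : ℝ) + l) / 2) *
            tailBound (etaBound (t, s) (t', s') k l) D l)
      ≤ 10000 * momentConst ^ 2 *
        (rp (-((l : ℝ) - k) / 16) * Real.sqrt (σ * σ')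
          + ((l : ℝ) + 2) * rp (-(7 * (l : ℝ)) / 16)) * (decay (t, s) * decay (t', s')) := by
  have hM := momentConst_pos
  have hM1 : 1 ≤ momentConst := Real.one_le_exp (by positivity)
  have hg1 := rp_pos (expOne k l t s t' s')
  have hg2 := rp_pos (expTwo k l t s t' s')
  obtain ⟨D, hD, hDeq⟩ := exists_opt
    (a := 128 * σ * σ' * rp (expOne k l t s t' s'))
    (b := 16 * (64 * momentConst ^ 2) * rp (expTwo k l t s t' s')) (by positivity) (by positivity)
  refine ⟨D, hD, ?_⟩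
  refine le_trans (add_le_add (small_piece k l t s t' s' hkl hnA hnA' hσ0.le hσ0'.le hD.le hcard
    hcard') (large_piece k l t s t' s' hkl hsmall hD)) ?_
  rw [← add_assoc, hDeq]
  have hE := exp_prod_le k l t s t' s'
  have hdec : 0 ≤ decay (t, s) * decay (t', s') := mul_nonneg (decay_pos _).le (decay_pos _).le
  have hH := rp_pos (-((l : ℝ) - k) / 16)
  have hG := rp_pos (-(7 * (l : ℝ)) / 16)
  generalize rp (expOne k l t s t' s') = E₁ at hg1 hE ⊢
  generalize rp (expTwo k l t s t' s') = E₂ at hg2 hE ⊢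
  generalize decay (t, s) * decay (t', s') = G₂ at hdec hE ⊢
  generalize rp (-((l : ℝ) - k) / 16) = H at hH hE ⊢
  generalize rp (-(7 * (l : ℝ)) / 16) = G₁ at hG ⊢
  have hsq : Real.sqrt (128 * σ * σ' * E₁ * (16 * (64 * momentConst ^ 2) * E₂))
      ≤ 400 * momentConst * (Real.sqrt (σ * σ') * (H * G₂)) := by
    refine Real.sqrt_le_iff.2 ⟨by positivity, ?_⟩
    rw [mul_pow, mul_pow (Real.sqrt (σ * σ')), Real.sq_sqrt (mul_pos hσ0 hσ0').le]
    have h := mul_le_mul_of_nonneg_left hE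
      (by positivity : 0 ≤ 131072 * momentConst ^ 2 * (σ * σ'))
    have : 0 ≤ momentConst ^ 2 * (σ * σ') * (H * G₂) ^ 2 := by positivity
    linarith
  have h1 : 800 * momentConst * (Real.sqrt (σ * σ') * (H * G₂))
      ≤ 10000 * momentConst ^ 2 * (Real.sqrt (σ * σ') * (H * G₂)) :=
    mul_le_mul_of_nonneg_right (by nlinarith) (by positivity)
  have h2 : 0 ≤ momentConst ^ 2 * (((l : ℝ) + 2) * G₁ * G₂) := by positivity
  linarith

/-- Bound for the excess between two classes of close levels. -/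
lemma class_pair_bound (γ : ℝ) {δ : ℕ → ℝ} (hδ : SmallRadii δ) (k l : ℕ) (hkl : k ≤ l)
    (hsmall : 8 * (l - k) < l) (c c' : ℕ × ℕ) (A A' : Finset ℕ)
    (hA : ∀ q ∈ A, InClass γ δ k c q) (hA' : ∀ r ∈ A', InClass γ δ l c' r) :
    ∑ p ∈ (A ×ˢ A').filter (fun p => p.1 < p.2), excess γ δ p.1 p.2
      ≤ 10000 * momentConst ^ 2 *
        (rp (-((l : ℝ) - k) / 16) * Real.sqrt ((∑ q ∈ A, mass γ δ q) * ∑ r ∈ A', mass γ δ r)
          + ((l : ℝ) + 2) * rp (-(7 * (l : ℝ)) / 16)) * (decay c * decay c') := by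
  have hM := momentConst_pos
  have hnn : 0 ≤ 10000 * momentConst ^ 2 *
      (rp (-((l : ℝ) - k) / 16) * Real.sqrt ((∑ q ∈ A, mass γ δ q) * ∑ r ∈ A', mass γ δ r)
        + ((l : ℝ) + 2) * rp (-(7 * (l : ℝ)) / 16)) * (decay c * decay c') := by
    have := rp_pos (-((l : ℝ) - k) / 16)
    have := rp_pos (-(7 * (l : ℝ)) / 16)
    have := decay_pos c
    have := decay_pos c'
    positivity
  rcases A.eq_empty_or_nonempty with rfl | hAne
  · simpa using hnn
  rcases A'.eq_empty_or_nonempty with rfl | hAne'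
  · simpa using hnn
  obtain ⟨D, hD, hopt⟩ := optimise k l hkl hsmall c.1 c.2 c'.1 c'.2 (A.card : ℝ) (A'.card : ℝ)
    (∑ q ∈ A, mass γ δ q) (∑ r ∈ A', mass γ δ r) (Nat.cast_nonneg _) (Nat.cast_nonneg _)
    (Finset.sum_pos (fun q hq => lt_of_lt_of_le
      (div_pos (rp_pos _) (by norm_num)) (hA q hq).massLow) hAne)
    (Finset.sum_pos (fun q hq => lt_of_lt_of_le
      (div_pos (rp_pos _) (by norm_num)) (hA' q hq).massLow) hAne')
    (card_class_le γ δ k c A hA) (card_class_le γ δ l c' A' hA')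
  refine (gcd_split γ hδ k l c c' A A' hA hA' D hD).trans (le_trans ?_ hopt)
  refine add_le_add le_rfl (mul_le_mul_of_nonneg_left
    (tail_geom_le γ k l c c' A A' hA hA' (etaBound_nonneg c c' k l) hD) ?_)
  have h0 : 0 ≤ min (radBound c k) (radBound c' l) := le_min (rp_pos _).le (rp_pos _).le
  exact mul_nonneg two_pos.le h0

/-- Every `q` with positive radius belongs to some class. -/
lemma exists_class (γ : ℝ) {δ : ℕ → ℝ} (hδ : SmallRadii δ) (q : ℕ) (hq : 0 < δ q) :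
    ∃ c : ℕ × ℕ, InClass γ δ (level q) c q := by
  have hq0 : 0 < q := Nat.pos_of_ne_zero fun h => by rw [h, hδ.1] at hq; exact lt_irrefl 0 hq
  have hqR : (0 : ℝ) < q := by exact_mod_cast hq0
  have hy : 1 ≤ 1 / (δ q * (q : ℝ) ^ 2) := by
    rw [one_le_div (by positivity)]
    linarith [(hδ.2 q).2]
  obtain ⟨t, ht1, ht2⟩ := exists_nat_pow_near hy (one_lt_two (α := ℝ))
  obtain ⟨s, hs1, hs2⟩ := exists_nat_pow_near (one_le_bigPrimeRatio 0 q) (one_lt_two (α := ℝ))
  obtain ⟨hk1, hk2⟩ := eq_two_pow_level_le hq0 rfl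
  set k := level q with hk
  have hQ : ((2 : ℝ) ^ k) ≤ q := by exact_mod_cast hk1
  have hQ2 : (q : ℝ) ≤ (2 : ℝ) ^ (k + 1) := by exact_mod_cast hk2.le
  rw [le_div_iff₀ (by positivity)] at ht1
  rw [div_lt_iff₀ (by positivity)] at ht2
  refine ⟨(t, s), hq0, rfl, ?_, ?_, ?_⟩
  · rw [show (-(t : ℝ) - 2 * k) = -((t + 2 * k : ℕ) : ℝ) by push_cast; ring, rp_neg, rp_natCast,
      inv_eq_one_div, le_div_iff₀ (by positivity)]
    have h1 : ((2 : ℝ) ^ k) ^ 2 ≤ (q : ℝ) ^ 2 := pow_le_pow_left₀ (by positivity) hQ 2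
    calc δ q * 2 ^ (t + 2 * k) = 2 ^ t * (δ q * ((2 : ℝ) ^ k) ^ 2) := by
          rw [pow_add, pow_mul']; ring
      _ ≤ 2 ^ t * (δ q * (q : ℝ) ^ 2) := by
          refine mul_le_mul_of_nonneg_left (mul_le_mul_of_nonneg_left h1 hq.le) (by positivity)
      _ ≤ 1 := ht1
  · rw [show (4 * (s : ℝ)) = ((4 * s : ℕ) : ℝ) by push_cast; ring, rp_natCast, wt, pow_mul']
    exact pow_le_pow_left₀ (by positivity) hs1 4
  · rw [show (-(t : ℝ) - s - k) = -((t + s + k : ℕ) : ℝ) by push_cast; ring, rp_neg, rp_natCast,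
      div_le_iff₀ (by norm_num), inv_le_iff_one_le_mul₀ (by positivity)]
    have hw := one_le_propKeep_mul_ratio γ q
    have hp := propKeep_pos γ q
    have hA : (1 : ℝ) ≤ propKeep γ q * 2 ^ (s + 1) :=
      hw.trans (mul_le_mul_of_nonneg_left hs2.le hp.le)
    have hB : (1 : ℝ) ≤ 2 ^ (t + 1) * (δ q * (q : ℝ) ^ 2) := ht2.le
    calc (1 : ℝ) ≤ (propKeep γ q * 2 ^ (s + 1)) * (2 ^ (t + 1) * (δ q * (q : ℝ) ^ 2)) := by
          nlinarith
      _ = mass γ δ q * 2 ^ (s + 1) * 2 ^ (t + 1) * q := by unfold mass; ring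
      _ ≤ mass γ δ q * 2 ^ (s + 1) * 2 ^ (t + 1) * 2 ^ (k + 1) := by
          refine mul_le_mul_of_nonneg_left hQ2 ?_
          have := mass_nonneg (fun q => (hδ.2 q).1) γ q
          positivity
      _ = _ := by ring

end Vale.Agent.P028
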