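import Mathlib
import Vale.Agent.P028.Energy

/-!
# Summing over classes and levels
-/

namespace Vale.Agent.P028

open Finset MeasureTheory

open scoped Classical

/-- Members of `S` of a given level. -/
def levelSet (S : Finset ℕ) (k : ℕ) : Finset ℕ := S.filter (fun q => level q = k)

/-- The mass of a level. -/
noncomputable def levelMass (γ : ℝ) (δ : ℕ → ℝ) (S : Finset ℕ) (k : ℕ) : ℝ :=
  ∑ q ∈ levelSet S k, mass γ δ q

lemma levelMass_nonneg (γ : ℝ) {δ : ℕ → ℝ} (hδ : SmallRadii δ) (S : Finset ℕ) (k : ℕ) :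
    0 ≤ levelMass γ δ S k :=
  Finset.sum_nonneg fun q _ => mass_nonneg (fun q => (hδ.2 q).1) γ q

lemma mass_le_inv (γ : ℝ) {δ : ℕ → ℝ} (hδ : SmallRadii δ) {q k : ℕ} (hq : 0 < q)
    (h : level q = k) : mass γ δ q ≤ 1 / (2 : ℝ) ^ k := by
  have h1 := (eq_two_pow_level_le hq h).1
  have hk : ((2 : ℝ) ^ k) ≤ q := by exact_mod_cast h1
  have hq' : (0 : ℝ) < q := by exact_mod_cast hq
  have h2 : mass γ δ q ≤ (q : ℝ) * δ q :=
    mul_le_of_le_one_right (mul_nonneg hq'.le (hδ.2 q).1) (propKeep_le_one γ q)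
  refine h2.trans (le_trans ?_ (one_div_le_one_div_of_le (by positivity) hk))
  rw [le_div_iff₀ hq']
  linarith [(hδ.2 q).2]

lemma levelMass_le_one (γ : ℝ) {δ : ℕ → ℝ} (hδ : SmallRadii δ) (S : Finset ℕ)
    (hS : ∀ q ∈ S, 0 < q) (k : ℕ) : levelMass γ δ S k ≤ 1 := by
  have hsub : levelSet S k ⊆ Finset.Ico (2 ^ k) (2 ^ (k + 1)) := by
    intro q hq
    obtain ⟨h1, h2⟩ := Finset.mem_filter.1 hq
    exact Finset.mem_Ico.2 (eq_two_pow_level_le (hS q h1) h2)
  calc levelMass γ δ S k ≤ ∑ _q ∈ levelSet S k, 1 / (2 : ℝ) ^ k :=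
        Finset.sum_le_sum fun q hq =>
          mass_le_inv γ hδ (hS q (Finset.mem_filter.1 hq).1) (Finset.mem_filter.1 hq).2
    _ = ((levelSet S k).card : ℝ) * (1 / (2 : ℝ) ^ k) := by rw [Finset.sum_const, nsmul_eq_mul]
    _ ≤ ((2 ^ k : ℕ) : ℝ) * (1 / (2 : ℝ) ^ k) := by
        refine mul_le_mul_of_nonneg_right ?_ (by positivity)
        refine Nat.cast_le.2 ((Finset.card_le_card hsub).trans (le_of_eq ?_))
        rw [Nat.card_Ico, pow_succ]; omega
    _ = 1 := by push_cast; field_simp

/-- The excess over all pairs of two levels. -/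
noncomputable def pairExcess (γ : ℝ) (δ : ℕ → ℝ) (S : Finset ℕ) (k l : ℕ) : ℝ :=
  ∑ p ∈ (levelSet S k ×ˢ levelSet S l).filter (fun p => p.1 < p.2), excess γ δ p.1 p.2

/-- The main term over all pairs of two levels. -/
noncomputable def pairMain (γ : ℝ) (δ : ℕ → ℝ) (S : Finset ℕ) (k l : ℕ) : ℝ :=
  8 * (∑ q ∈ levelSet S k, mass γ δ q * bigPrimeRatio (zPar k l) q) *
    (∑ r ∈ levelSet S l, mass γ δ r * bigPrimeRatio (zPar k l) r)

/-- The decay in the difference of two levels. -/
noncomputable def gap (i : ℕ) : ℝ := rp (-(i : ℝ) / 32)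

lemma gap_pos (i : ℕ) : 0 < gap i := rp_pos _

lemma gap_eq_pow (i : ℕ) : gap i = rp (-1 / 32) ^ i := by
  rw [gap, ← rp_mul_natCast]; congr 1; ring

lemma rp_lt_one {x : ℝ} (hx : x < 0) : rp x < 1 := by
  rw [← rp_zero]; exact Real.rpow_lt_rpow_of_exponent_lt one_lt_two hx

lemma summable_gap : Summable gap := by
  refine Summable.congr ?_ (fun i => (gap_eq_pow i).symm)
  exact summable_geometric_of_lt_one (rp_pos _).le (rp_lt_one (by norm_num))

/-- The level error. -/
noncomputable def levelErr (l : ℕ) : ℝ := ((l : ℝ) + 2) * rp (-(7 * (l : ℝ)) / 16)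

lemma summable_levelErr_mul : Summable (fun l : ℕ => ((l : ℝ) + 1) * levelErr l) := by
  have hr : ‖rp (-7 / 16)‖ < 1 := by
    rw [Real.norm_eq_abs, abs_of_pos (rp_pos _)]; exact rp_lt_one (by norm_num)
  have h2 := summable_pow_mul_geometric_of_norm_lt_one 2 hr
  have h1 := summable_pow_mul_geometric_of_norm_lt_one 1 hr
  have h0 := summable_pow_mul_geometric_of_norm_lt_one 0 hr
  refine ((h2.add (h1.mul_left 3)).add (h0.mul_left 2)).congr fun l => ?_
  have e : rp (-(7 * (l : ℝ)) / 16) = rp (-7 / 16) ^ l := by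
    rw [← rp_mul_natCast]; congr 1; ring
  rw [levelErr, e]; ring

lemma decay_eq (c : ℕ × ℕ) : decay c = rp (-1 / 16) ^ c.1 * rp (-1 / 2) ^ c.2 := by
  rw [decay, ← rp_mul_natCast, ← rp_mul_natCast]; congr 2 <;> ring

lemma decay_le_one (c : ℕ × ℕ) : decay c ≤ 1 := by
  rw [decay_eq]
  exact mul_le_one₀ (pow_le_one₀ (rp_pos _).le (rp_lt_one (by norm_num)).le)
    (pow_nonneg (rp_pos _).le _) (pow_le_one₀ (rp_pos _).le (rp_lt_one (by norm_num)).le)

lemma summable_decay : Summable decay := by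
  refine Summable.congr ?_ (fun c => (decay_eq c).symm)
  exact (summable_geometric_of_lt_one (rp_pos _).le (rp_lt_one (by norm_num))).mul_of_nonneg
    (summable_geometric_of_lt_one (rp_pos _).le (rp_lt_one (by norm_num)))
    (fun n => pow_nonneg (rp_pos _).le n) (fun n => pow_nonneg (rp_pos _).le n)

/-- Small differences of levels. -/
lemma exists_pairExcess_small_le (γ : ℝ) :
    ∃ C : ℝ, 0 ≤ C ∧ ∀ δ : ℕ → ℝ, SmallRadii δ → ∀ S : Finset ℕ, (∀ q ∈ S, 0 < δ q) →
      ∀ k l : ℕ, k ≤ l → 8 * (l - k) < l → pairExcess γ δ S k l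
        ≤ C * (gap (l - k) * (levelMass γ δ S k + levelMass γ δ S l) + levelErr l) := by
  set T : ℝ := ∑' c, decay c with hT
  have hT0 : 0 ≤ T := tsum_nonneg fun c => (decay_pos c).le
  set C₀ : ℝ := 10000 * momentConst ^ 2 with hC₀
  refine ⟨C₀ * (T + T ^ 2), by positivity, fun δ hδ S hS k l hkl hsmall => ?_⟩
  obtain ⟨cls, hcls⟩ : ∃ cls : ℕ → ℕ × ℕ, ∀ q ∈ S, InClass γ δ (level q) (cls q) q := by
    refine ⟨fun q => if h : 0 < δ q then (exists_class γ hδ q h).choose else (0, 0), fun q hq => ?_⟩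
    simp only [dif_pos (hS q hq)]
    exact (exists_class γ hδ q (hS q hq)).choose_spec
  set F := ((levelSet S k) ×ˢ (levelSet S l)).filter (fun p => p.1 < p.2) with hF
  set I := (levelSet S k).image cls with hI
  set J := (levelSet S l).image cls with hJ
  set Ak : ℕ × ℕ → Finset ℕ := fun c => (levelSet S k).filter (fun q => cls q = c) with hAk
  set Al : ℕ × ℕ → Finset ℕ := fun c => (levelSet S l).filter (fun q => cls q = c) with hAl
  set σ : ℕ × ℕ → ℝ := fun c => ∑ q ∈ Ak c, mass γ δ q with hσ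
  set σ' : ℕ × ℕ → ℝ := fun c => ∑ q ∈ Al c, mass γ δ q with hσ'
  have hσ0 : ∀ c, 0 ≤ σ c := fun c => Finset.sum_nonneg fun q _ => mass_nonneg (fun q => (hδ.2 q).1) γ q
  have hσ0' : ∀ c, 0 ≤ σ' c := fun c => Finset.sum_nonneg fun q _ => mass_nonneg (fun q => (hδ.2 q).1) γ q
  have hsI : ∑ c ∈ I, σ c = levelMass γ δ S k :=
    Finset.sum_fiberwise_of_maps_to (fun q hq => Finset.mem_image_of_mem _ hq) _
  have hsJ : ∑ c ∈ J, σ' c = levelMass γ δ S l :=
    Finset.sum_fiberwise_of_maps_to (fun q hq => Finset.mem_image_of_mem _ hq) _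
  have heI : ∑ c ∈ I, decay c ≤ T := summable_decay.sum_le_tsum _ fun c _ => (decay_pos c).le
  have heJ : ∑ c ∈ J, decay c ≤ T := summable_decay.sum_le_tsum _ fun c _ => (decay_pos c).le
  set g := gap (l - k) with hg
  have hg' : g = rp (-((l : ℝ) - k) / 32) := by
    rw [hg, gap, Nat.cast_sub hkl]
  have hH : rp (-((l : ℝ) - k) / 16) ≤ g := by
    rw [hg']; refine rp_mono ?_
    have : (k : ℝ) ≤ l := by exact_mod_cast hkl
    linarith
  have hE0 : 0 ≤ levelErr l := by have := rp_pos (-(7 * (l : ℝ)) / 16); unfold levelErr; positivity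
  have key : ∀ c ∈ I, ∀ c' ∈ J,
      ∑ p ∈ F.filter (fun p => (cls p.1, cls p.2) = (c, c')), excess γ δ p.1 p.2
        ≤ C₀ * (g / 2 * (σ c * decay c' + σ' c' * decay c) + levelErr l * (decay c * decay c')) := by
    intro c _ c' _
    have heq : F.filter (fun p => (cls p.1, cls p.2) = (c, c'))
        = (Ak c ×ˢ Al c').filter (fun p => p.1 < p.2) := by
      ext p
      simp only [hF, hAk, hAl, Finset.mem_filter, Finset.mem_product, Prod.mk.injEq]
      tauto
    rw [heq]
    refine (class_pair_bound γ hδ k l hkl hsmall c c' (Ak c) (Al c') ?_ ?_).trans ?_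
    · intro q hq
      obtain ⟨hq1, hq2⟩ := Finset.mem_filter.1 hq
      obtain ⟨hqS, hqk⟩ := Finset.mem_filter.1 hq1
      have := hcls q hqS
      rwa [hqk, hq2] at this
    · intro q hq
      obtain ⟨hq1, hq2⟩ := Finset.mem_filter.1 hq
      obtain ⟨hqS, hqk⟩ := Finset.mem_filter.1 hq1
      have := hcls q hqS
      rwa [hqk, hq2] at this
    rw [← hC₀, mul_assoc]
    refine mul_le_mul_of_nonneg_left ?_ (by positivity)
    have hd := decay_pos c
    have hd' := decay_pos c'
    have hd1 := decay_le_one c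
    have hd1' := decay_le_one c'
    have hAM : Real.sqrt (σ c * σ' c') * (decay c * decay c')
        ≤ (σ c * decay c' + σ' c' * decay c) / 2 := by
      have hx : Real.sqrt (σ c * σ' c') * (decay c * decay c')
          ≤ Real.sqrt ((σ c * decay c') * (σ' c' * decay c)) := by
        rw [show σ c * decay c' * (σ' c' * decay c) = (σ c * σ' c') * (decay c * decay c') by ring,
          Real.sqrt_mul (mul_nonneg (hσ0 c) (hσ0' c')) (decay c * decay c')]
        refine mul_le_mul_of_nonneg_left ?_ (Real.sqrt_nonneg _)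
        refine Real.le_sqrt_of_sq_le ?_
        have : decay c * decay c' ≤ 1 := mul_le_one₀ hd1 hd'.le hd1'
        nlinarith [mul_pos hd hd']
      refine hx.trans (Real.sqrt_le_iff.2 ⟨?_, ?_⟩)
      · have := hσ0 c; have := hσ0' c'; positivity
      · nlinarith [sq_nonneg (σ c * decay c' - σ' c' * decay c)]
    have h1 : rp (-((l : ℝ) - k) / 16) * (Real.sqrt (σ c * σ' c') * (decay c * decay c'))
        ≤ g * ((σ c * decay c' + σ' c' * decay c) / 2) :=
      mul_le_mul hH hAM (by positivity) (gap_pos _).le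
    unfold levelErr
    linarith
  calc pairExcess γ δ S k l = ∑ x ∈ I ×ˢ J,
        ∑ p ∈ F.filter (fun p => (cls p.1, cls p.2) = x), excess γ δ p.1 p.2 := by
        refine (Finset.sum_fiberwise_of_maps_to (fun p hp => ?_) _).symm
        obtain ⟨h1, h2⟩ := Finset.mem_product.1 (Finset.mem_filter.1 hp).1
        exact Finset.mem_product.2 ⟨Finset.mem_image_of_mem _ h1, Finset.mem_image_of_mem _ h2⟩
    _ ≤ ∑ x ∈ I ×ˢ J, C₀ * (g / 2 * (σ x.1 * decay x.2 + σ' x.2 * decay x.1)
          + levelErr l * (decay x.1 * decay x.2)) :=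
        Finset.sum_le_sum fun x hx =>
          key x.1 (Finset.mem_product.1 hx).1 x.2 (Finset.mem_product.1 hx).2
    _ = C₀ * (g / 2 * (levelMass γ δ S k * (∑ c ∈ J, decay c)
          + levelMass γ δ S l * (∑ c ∈ I, decay c))
          + levelErr l * ((∑ c ∈ I, decay c) * ∑ c ∈ J, decay c)) := by
        rw [← hsI, ← hsJ, ← Finset.mul_sum, Finset.sum_add_distrib, ← Finset.mul_sum,
          ← Finset.mul_sum, Finset.sum_add_distrib, Finset.sum_mul_sum, Finset.sum_mul_sum,
          Finset.sum_mul_sum, Finset.sum_product, Finset.sum_product, Finset.sum_product,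
          Finset.sum_comm (s := J) (t := I)]
    _ ≤ C₀ * (g / 2 * (levelMass γ δ S k * T + levelMass γ δ S l * T) + levelErr l * (T * T)) := by
        have hg0 : 0 ≤ g / 2 := by have := gap_pos (l - k); positivity
        refine mul_le_mul_of_nonneg_left (add_le_add ?_ ?_) (by positivity)
        · exact mul_le_mul_of_nonneg_left (add_le_add
            (mul_le_mul_of_nonneg_left heJ (levelMass_nonneg γ hδ S k))
            (mul_le_mul_of_nonneg_left heI (levelMass_nonneg γ hδ S l))) hg0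
        · exact mul_le_mul_of_nonneg_left (mul_le_mul heI heJ
            (Finset.sum_nonneg fun c _ => (decay_pos c).le) hT0) hE0
    _ ≤ C₀ * (T + T ^ 2) * (g * (levelMass γ δ S k + levelMass γ δ S l) + levelErr l) := by
        have := levelMass_nonneg γ hδ S k
        have := levelMass_nonneg γ hδ S l
        have := gap_pos (l - k)
        have a1 : 0 ≤ C₀ * T ^ 2 * (g * (levelMass γ δ S k + levelMass γ δ S l)) := by positivity
        have a2 : 0 ≤ C₀ * T * levelErr l := by positivity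
        have a3 : 0 ≤ C₀ * T * (g * (levelMass γ δ S k + levelMass γ δ S l)) := by positivity
        linarith

lemma sum_gcd_le (r N : ℕ) (hr : 0 < r) :
    ∑ q ∈ Finset.Ioc 0 N, (Nat.gcd q r : ℝ) ≤ N * r.divisors.card := by
  calc ∑ q ∈ Finset.Ioc 0 N, (Nat.gcd q r : ℝ)
      ≤ ∑ q ∈ Finset.Ioc 0 N, ∑ e ∈ r.divisors, (if e ∣ q then (e : ℝ) else 0) := by
        refine Finset.sum_le_sum fun q _ => ?_
        refine le_trans (le_of_eq ?_) (Finset.single_le_sum
          (f := fun e => if e ∣ q then (e : ℝ) else 0) (fun e _ => by positivity)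
          (Nat.mem_divisors.2 ⟨Nat.gcd_dvd_right q r, hr.ne'⟩))
        simp [Nat.gcd_dvd_left]
    _ = ∑ e ∈ r.divisors, ((((Finset.Ioc 0 N).filter (fun q => e ∣ q)).card : ℕ) : ℝ) * e := by
        rw [Finset.sum_comm]
        refine Finset.sum_congr rfl fun e _ => ?_
        rw [← Finset.sum_filter, Finset.sum_const, nsmul_eq_mul]
    _ ≤ ∑ _e ∈ r.divisors, (N : ℝ) := by
        refine Finset.sum_le_sum fun e he => ?_
        rw [Nat.Ioc_filter_dvd_card_eq_div]
        exact_mod_cast Nat.div_mul_le_self N e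
    _ = _ := by rw [Finset.sum_const, nsmul_eq_mul, mul_comm]

/-- Large differences of levels. -/
lemma exists_pairExcess_large_le (γ : ℝ) :
    ∃ C : ℝ, 0 ≤ C ∧ ∀ δ : ℕ → ℝ, SmallRadii δ → ∀ S : Finset ℕ, (∀ q ∈ S, 0 < q) →
      ∀ k l : ℕ, k ≤ l → ¬ 8 * (l - k) < l →
        pairExcess γ δ S k l ≤ C * gap (l - k) * levelMass γ δ S l := by
  obtain ⟨C₁, hC₁, hτ⟩ := exists_card_divisors_pow_le 32
  refine ⟨8 * C₁, by linarith, fun δ hδ S hS k l hkl hbig => ?_⟩
  rw [pairExcess, Finset.sum_filter, Finset.sum_product, Finset.sum_comm, levelMass, Finset.mul_sum]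
  refine Finset.sum_le_sum fun r hr => ?_
  obtain ⟨hrS, hrl⟩ := Finset.mem_filter.1 hr
  have hr0 := hS r hrS
  obtain ⟨hl1, hl2⟩ := eq_two_pow_level_le hr0 hrl
  set τ : ℝ := (r.divisors.card : ℝ) with hτdef
  have hδr := (hδ.2 r).1
  have hZ := four_pow_zPar_le hkl
  have h1 : ∑ q ∈ levelSet S k, (if q < r then excess γ δ q r else 0)
      ≤ 2 * 4 ^ zPar k l * δ r * ((2 : ℝ) ^ (k + 1) * τ) := by
    calc _ ≤ ∑ q ∈ levelSet S k, 2 * 4 ^ zPar k l * δ r * (Nat.gcd q r : ℝ) := by
          refine Finset.sum_le_sum fun q hq => ?_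
          obtain ⟨hqS, hqk⟩ := Finset.mem_filter.1 hq
          split_ifs
          · have := excess_le_of_main γ hδ (hS q hqS) hr0
            rw [hqk, hrl] at this
            refine this.trans (mul_le_mul_of_nonneg_right
              (mul_le_mul_of_nonneg_left (min_le_right _ _) (by positivity)) (Nat.cast_nonneg _))
          · positivity
      _ ≤ 2 * 4 ^ zPar k l * δ r * ∑ q ∈ Finset.Ioc 0 (2 ^ (k + 1)), (Nat.gcd q r : ℝ) := by
          rw [← Finset.mul_sum]
          refine mul_le_mul_of_nonneg_left (Finset.sum_le_sum_of_subset_of_nonneg (fun q hq => ?_)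
            fun _ _ _ => Nat.cast_nonneg _) (by positivity)
          obtain ⟨hqS, hqk⟩ := Finset.mem_filter.1 hq
          exact Finset.mem_Ioc.2 ⟨hS q hqS, (eq_two_pow_level_le (hS q hqS) hqk).2.le⟩
      _ ≤ _ := by
          refine mul_le_mul_of_nonneg_left ?_ (by positivity)
          have := sum_gcd_le r (2 ^ (k + 1)) hr0
          push_cast at this
          exact this
  have hmass : δ r * (2 : ℝ) ^ l ≤ mass γ δ r * τ := by
    have h := one_le_propKeep_mul_card γ r hr0
    have hl : (2 : ℝ) ^ l ≤ r := by exact_mod_cast hl1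
    calc δ r * (2 : ℝ) ^ l ≤ δ r * r * 1 := by rw [mul_one]; gcongr
      _ ≤ δ r * r * (propKeep γ r * τ) := mul_le_mul_of_nonneg_left h (by positivity)
      _ = _ := by unfold mass; ring
  have hdiv : τ ^ 2 ≤ 2 * C₁ * rp (((l : ℝ) - k) / 2) := by
    have hnn : (0 : ℝ) ≤ 2 * C₁ * rp (((l : ℝ) - k) / 2) := by
      have := rp_pos (((l : ℝ) - k) / 2); positivity
    refine le_of_pow_le_pow_left₀ (n := 16) (by norm_num) hnn ?_
    rw [← pow_mul, mul_pow, ← rp_mul_natCast]
    have h2 : (r : ℝ) ≤ (2 : ℝ) ^ (l + 1) := by exact_mod_cast hl2.le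
    calc τ ^ (2 * 16) ≤ C₁ * r := hτ r hr0
      _ ≤ C₁ * (2 * rp (((l : ℝ) - k) / 2 * (16 : ℕ))) := by
          refine mul_le_mul_of_nonneg_left (h2.trans ?_) (by linarith)
          rw [pow_succ, mul_comm]
          refine mul_le_mul_of_nonneg_left ?_ two_pos.le
          rw [← rp_natCast]
          refine rp_mono ?_
          have : (l : ℝ) + 8 * k ≤ 8 * l := by
            have : l + 8 * k ≤ 8 * l := by omega
            exact_mod_cast this
          push_cast
          linarith
      _ ≤ _ := by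
          rw [← mul_assoc, mul_comm C₁ 2]
          refine mul_le_mul_of_nonneg_right ?_ (rp_pos _).le
          exact le_self_pow₀ (by linarith) (by norm_num)
  have hm0 := mass_nonneg (fun q => (hδ.2 q).1) γ r
  refine h1.trans ?_
  have hl0 : (0 : ℝ) < 2 ^ l := by positivity
  have hτ0 : 0 ≤ τ := Nat.cast_nonneg _
  calc 2 * 4 ^ zPar k l * δ r * ((2 : ℝ) ^ (k + 1) * τ)
      = 4 * 4 ^ zPar k l * (δ r * 2 ^ l) * τ * (2 ^ k / 2 ^ l) := by
        field_simp; ring
    _ ≤ 4 * rp (((l : ℝ) - k) / 8) * (mass γ δ r * τ) * τ * (2 ^ k / 2 ^ l) := by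
        have := rp_pos (((l : ℝ) - k) / 8)
        gcongr
    _ = 4 * rp (((l : ℝ) - k) / 8) * mass γ δ r * τ ^ 2 * rp ((k : ℝ) - l) := by
        rw [show (k : ℝ) - l = (k : ℝ) + (-(l : ℝ)) by ring, rp_add (k : ℝ), rp_neg, rp_natCast,
          rp_natCast]
        ring
    _ ≤ 4 * rp (((l : ℝ) - k) / 8) * mass γ δ r * (2 * C₁ * rp (((l : ℝ) - k) / 2))
          * rp ((k : ℝ) - l) := by
        have := rp_pos (((l : ℝ) - k) / 8)
        have := rp_pos ((k : ℝ) - l)
        gcongr
    _ = 8 * C₁ * mass γ δ r * rp (((l : ℝ) - k) / 8 + ((l : ℝ) - k) / 2 + ((k : ℝ) - l)) := by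
        rw [rp_add, rp_add]; ring
    _ ≤ 8 * C₁ * mass γ δ r * gap (l - k) := by
        refine mul_le_mul_of_nonneg_left ?_ (by positivity)
        rw [gap, Nat.cast_sub hkl]
        refine rp_mono ?_
        have : (k : ℝ) ≤ l := by exact_mod_cast hkl
        linarith
    _ = _ := by ring

/-- Main terms. -/
lemma exists_pairMain_le (γ : ℝ) :
    ∃ C : ℝ, 0 ≤ C ∧ ∀ δ : ℕ → ℝ, SmallRadii δ → ∀ S : Finset ℕ, (∀ q ∈ S, 0 < q) →
      ∀ k l : ℕ, k ≤ l → pairMain γ δ S k l
        ≤ 32 * (levelMass γ δ S k * levelMass γ δ S l)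
          + C * gap (l - k) * (levelMass γ δ S k + levelMass γ δ S l) := by
  set c : ℝ := Real.sqrt (4 * momentConst) with hc
  have hc0 : 0 ≤ c := Real.sqrt_nonneg _
  have hc2 : c ^ 2 = 4 * momentConst := Real.sq_sqrt (by have := momentConst_pos; positivity)
  refine ⟨16 * c + 8 * c ^ 2, by positivity, fun δ hδ S hS k l hkl => ?_⟩
  set z := zPar k l with hz
  set r := gap (l - k) with hr
  have hr0 : 0 < r := gap_pos _
  have hr1 : r ≤ 1 := by
    rw [hr, gap, ← rp_zero]
    exact rp_mono (by have := Nat.cast_nonneg (α := ℝ) (l - k); linarith)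
  have hρ : 2 * momentConst / (2 : ℝ) ^ z ≤ (c * r) ^ 2 := by
    rw [mul_pow, hc2]
    have hz' : ((l : ℝ) - k) / 16 - 1 ≤ (z : ℝ) := by
      have h : l ≤ k + (16 * z + 16) := by rw [hz]; unfold zPar; omega
      have : (l : ℝ) ≤ k + (16 * z + 16) := by exact_mod_cast h
      linarith
    have h2 : 1 / (2 : ℝ) ^ z ≤ 2 * r ^ 2 := by
      rw [one_div, ← rp_natCast, ← rp_neg, hr, gap, Nat.cast_sub hkl, ← rp_mul_natCast,
        show (2 : ℝ) = rp 1 from (Real.rpow_one 2).symm, ← rp_add]
      refine rp_mono ?_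
      push_cast
      linarith
    have := mul_le_mul_of_nonneg_left h2 (by have := momentConst_pos; positivity :
      0 ≤ 2 * momentConst)
    calc 2 * momentConst / (2 : ℝ) ^ z = 2 * momentConst * (1 / (2 : ℝ) ^ z) := by ring
      _ ≤ _ := this
      _ = _ := by ring
  have hside : ∀ j : ℕ, ∃ T : ℝ, 0 ≤ T ∧ T ^ 2 ≤ levelMass γ δ S j * (c * r) ^ 2 ∧
      ∑ q ∈ levelSet S j, mass γ δ q * bigPrimeRatio z q ≤ 2 * levelMass γ δ S j + T := by
    intro j
    set P : ℕ → ℝ := fun q => if 2 < bigPrimeRatio z q then bigPrimeRatio z q else 0 with hP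
    have hm : ∀ q, 0 ≤ mass γ δ q := mass_nonneg (fun q => (hδ.2 q).1) γ
    have hP0 : ∀ q, 0 ≤ P q := fun q => by
      simp only [hP]; split_ifs <;> linarith [one_le_bigPrimeRatio z q]
    refine ⟨∑ q ∈ levelSet S j, mass γ δ q * P q,
      Finset.sum_nonneg fun q _ => mul_nonneg (hm q) (hP0 q), ?_, ?_⟩
    · have hcs := Finset.sum_sq_le_sum_mul_sum_of_sq_eq_mul (levelSet S j)
        (r := fun q => mass γ δ q * P q) (f := fun q => mass γ δ q)
        (g := fun q => mass γ δ q * P q ^ 2) (fun q _ => hm q)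
        (fun q _ => mul_nonneg (hm q) (sq_nonneg _)) (fun q _ => by ring)
      refine hcs.trans (mul_le_mul_of_nonneg_left (le_trans ?_ hρ) (levelMass_nonneg γ hδ S j))
      calc ∑ q ∈ levelSet S j, mass γ δ q * P q ^ 2
          ≤ ∑ q ∈ levelSet S j, 1 / (2 : ℝ) ^ j * (bigPrimeRatio z q ^ (z + 2) / (2 : ℝ) ^ z) := by
            refine Finset.sum_le_sum fun q hq => ?_
            obtain ⟨hqS, hqj⟩ := Finset.mem_filter.1 hq
            refine mul_le_mul (mass_le_inv γ hδ (hS q hqS) hqj) ?_ (sq_nonneg _) (by positivity)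
            have h1 := one_le_bigPrimeRatio z q
            simp only [hP]
            split_ifs with h2
            · rw [le_div_iff₀ (by positivity), pow_add, mul_comm]
              exact mul_le_mul_of_nonneg_right (pow_le_pow_left₀ two_pos.le h2.le z) (sq_nonneg _)
            · rw [zero_pow two_ne_zero]; positivity
        _ ≤ ∑ q ∈ Finset.Ioc 0 (2 ^ (j + 1)),
              1 / (2 : ℝ) ^ j * (bigPrimeRatio z q ^ (z + 2) / (2 : ℝ) ^ z) := by
            refine Finset.sum_le_sum_of_subset_of_nonneg (fun q hq => ?_) fun q _ _ => ?_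
            · obtain ⟨hqS, hqj⟩ := Finset.mem_filter.1 hq
              exact Finset.mem_Ioc.2 ⟨hS q hqS, (eq_two_pow_level_le (hS q hqS) hqj).2.le⟩
            · have := one_le_bigPrimeRatio z q; positivity
        _ ≤ 1 / (2 : ℝ) ^ j * ((momentConst * ((2 : ℝ) ^ (j + 1))) / (2 : ℝ) ^ z) := by
            rw [← Finset.mul_sum, ← Finset.sum_div]
            refine mul_le_mul_of_nonneg_left (div_le_div_of_nonneg_right ?_ (by positivity))
              (by positivity)
            have := sum_bigPrimeRatio_pow_le z (z + 2) (Or.inl le_rfl) (2 ^ (j + 1))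
            push_cast at this
            exact this
        _ = _ := by rw [pow_succ]; field_simp
    · rw [levelMass, Finset.mul_sum, ← Finset.sum_add_distrib]
      refine Finset.sum_le_sum fun q _ => ?_
      have h1 := one_le_bigPrimeRatio z q
      have h2 := hm q
      simp only [hP]
      split_ifs with h3
      · nlinarith
      · nlinarith [not_lt.1 h3]
  obtain ⟨T, hT0, hT2, hT⟩ := hside k
  obtain ⟨T', hT0', hT2', hT'⟩ := hside l
  set a := levelMass γ δ S k with ha
  set b := levelMass γ δ S l with hb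
  have ha0 : 0 ≤ a := levelMass_nonneg γ hδ S k
  have hb0 : 0 ≤ b := levelMass_nonneg γ hδ S l
  have ha1 : a ≤ 1 := levelMass_le_one γ hδ S hS k
  have hb1 : b ≤ 1 := levelMass_le_one γ hδ S hS l
  have hcr : 0 ≤ c * r := by positivity
  have hT1 : T ≤ c * r := by
    refine (pow_le_pow_iff_left₀ hT0 hcr two_ne_zero).1 (hT2.trans ?_)
    exact mul_le_of_le_one_left (sq_nonneg _) ha1
  have hT1' : T' ≤ c * r := by
    refine (pow_le_pow_iff_left₀ hT0' hcr two_ne_zero).1 (hT2'.trans ?_)
    exact mul_le_of_le_one_left (sq_nonneg _) hb1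
  have hTT : 2 * (T * T') ≤ (a + b) * (c ^ 2 * r) := by
    have h1 : 2 * (T * T') ≤ (a + b) * (c * r) ^ 2 := by nlinarith [sq_nonneg (T - T')]
    refine h1.trans (mul_le_mul_of_nonneg_left ?_ (by positivity))
    rw [mul_pow]
    refine mul_le_mul_of_nonneg_left ?_ (sq_nonneg c)
    rw [pow_two]
    exact mul_le_of_le_one_left hr0.le hr1
  have h0 : 0 ≤ ∑ q ∈ levelSet S l, mass γ δ q * bigPrimeRatio z q :=
    Finset.sum_nonneg fun q _ => mul_nonneg (mass_nonneg (fun q => (hδ.2 q).1) γ q)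
      (le_trans zero_le_one (one_le_bigPrimeRatio z q))
  have hprod := mul_le_mul hT hT' h0 (by positivity)
  have e1 : a * T' ≤ a * (c * r) := mul_le_mul_of_nonneg_left hT1' ha0
  have e2 : b * T ≤ b * (c * r) := mul_le_mul_of_nonneg_left hT1 hb0
  have e3 : 0 ≤ r * c ^ 2 * (a + b) := by positivity
  unfold pairMain
  rw [← hz]
  linarith

/-- The diagonal. -/
lemma exists_overlap_self_le (γ : ℝ) :
    ∃ C : ℝ, 0 ≤ C ∧ ∀ δ : ℕ → ℝ, SmallRadii δ → ∀ q, 0 < q →
      overlap γ δ q q ≤ C * mass γ δ q := by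
  obtain ⟨C, hC, hτ⟩ := exists_card_divisors_pow_le 2
  refine ⟨2 + 6 * C, by linarith, fun δ hδ q hq => ?_⟩
  rw [overlap, Set.inter_self]
  have h := (abs_le.1 (approxSet_equidist γ hδ hq (x := 0) (y := 1) zero_le_one)).2
  have hd := (hδ.2 q).1
  have hw := one_le_propKeep_mul_card γ q hq
  have h2 := hτ q hq
  have hp := propKeep_pos γ q
  have h3 : (q.divisors.card : ℝ) ≤ C * (q * propKeep γ q) := by
    calc (q.divisors.card : ℝ) = q.divisors.card * 1 := (mul_one _).symm
      _ ≤ q.divisors.card * (propKeep γ q * q.divisors.card) :=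
          mul_le_mul_of_nonneg_left hw (Nat.cast_nonneg _)
      _ = propKeep γ q * (q.divisors.card : ℝ) ^ 2 := by ring
      _ ≤ propKeep γ q * (C * q) := mul_le_mul_of_nonneg_left h2 hp.le
      _ = _ := by ring
  have h4 := mul_le_mul_of_nonneg_left h3 (by positivity : 0 ≤ 6 * δ q)
  unfold mass at *
  linarith

lemma overlap_comm (γ : ℝ) (δ : ℕ → ℝ) (q r : ℕ) : overlap γ δ q r = overlap γ δ r q := by
  rw [overlap, overlap, Set.inter_comm (approxSet γ δ q)]

lemma sum_gap_le (s : Finset ℕ) (f : ℕ → ℕ) (hf : Set.InjOn f s) :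
    ∑ k ∈ s, gap (f k) ≤ ∑' i, gap i := by
  rw [← Finset.sum_image hf]
  exact summable_gap.sum_le_tsum _ fun i _ => (gap_pos i).le

/-- The second moment bound. -/
theorem exists_second_moment (γ : ℝ) :
    ∃ C : ℝ, 0 ≤ C ∧ ∀ δ : ℕ → ℝ, SmallRadii δ → ∀ S : Finset ℕ,
      ∑ q ∈ S, ∑ r ∈ S, overlap γ δ q r
        ≤ C * ((∑ q ∈ S, mass γ δ q) ^ 2 + (∑ q ∈ S, mass γ δ q) + 1) := by
  obtain ⟨C₁, hC₁, hsmall⟩ := exists_pairExcess_small_le γ
  obtain ⟨C₂, hC₂, hlarge⟩ := exists_pairExcess_large_le γ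
  obtain ⟨C₃, hC₃, hmain⟩ := exists_pairMain_le γ
  obtain ⟨C₄, hC₄, hdiag⟩ := exists_overlap_self_le γ
  set G := ∑' i, gap i with hG
  have hG0 : 0 ≤ G := tsum_nonneg fun i => (gap_pos i).le
  set Eh := ∑' l : ℕ, ((l : ℝ) + 1) * levelErr l with hEh
  have herr0 : ∀ l, 0 ≤ levelErr l := fun l => by
    have := rp_pos (-(7 * (l : ℝ)) / 16); unfold levelErr; positivity
  have hEh0 : 0 ≤ Eh := tsum_nonneg fun l => mul_nonneg (by positivity) (herr0 l)
  set B := C₁ + C₂ + C₃ with hB
  refine ⟨C₄ + 64 + 4 * B * G + 2 * B * Eh, by positivity, fun δ hδ S₀ => ?_⟩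
  set S := S₀.filter (fun q => 0 < δ q) with hS
  have hempty : ∀ q, ¬ 0 < δ q → approxSet γ δ q = ∅ := by
    intro q hq
    refine Set.eq_empty_of_forall_notMem fun x ⟨a, _, hx⟩ => ?_
    linarith [abs_nonneg (x - ((a : ℝ) + γ) / q), not_lt.1 hq]
  have hov0 : ∀ q r, ¬ 0 < δ q → overlap γ δ q r = 0 := fun q r hq => by
    simp [overlap, hempty q hq]
  have hred : ∑ q ∈ S₀, ∑ r ∈ S₀, overlap γ δ q r = ∑ q ∈ S, ∑ r ∈ S, overlap γ δ q r := by
    rw [hS, Finset.sum_filter_of_ne (fun q _ h => ?_)]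
    · refine Finset.sum_congr rfl fun q _ => ?_
      rw [Finset.sum_filter_of_ne (fun r _ h => ?_)]
      by_contra hr
      exact h (by rw [overlap_comm]; exact hov0 r q hr)
    · by_contra hq
      exact h (Finset.sum_eq_zero fun r _ => hov0 q r hq)
  have hSM : (∑ q ∈ S, mass γ δ q) ≤ ∑ q ∈ S₀, mass γ δ q :=
    Finset.sum_le_sum_of_subset_of_nonneg (Finset.filter_subset _ _)
      fun q _ _ => mass_nonneg (fun q => (hδ.2 q).1) γ q
  have hSd : ∀ q ∈ S, 0 < δ q := fun q hq => (Finset.mem_filter.1 hq).2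
  have hSq : ∀ q ∈ S, 0 < q := fun q hq => Nat.pos_of_ne_zero fun h => by
    have := hSd q hq; rw [h, hδ.1] at this; exact lt_irrefl 0 this
  clear_value S
  rw [hred]
  set M := ∑ q ∈ S, mass γ δ q with hMdef
  have hM0 : 0 ≤ M := Finset.sum_nonneg fun q _ => mass_nonneg (fun q => (hδ.2 q).1) γ q
  -- ordered pairs
  set U := ∑ p ∈ (S ×ˢ S).filter (fun p => p.1 < p.2), overlap γ δ p.1 p.2 with hU
  have hsplit : ∑ q ∈ S, ∑ r ∈ S, overlap γ δ q r = (∑ q ∈ S, overlap γ δ q q) + 2 * U := by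
    have e : ∀ q r, overlap γ δ q r = (if q = r then overlap γ δ q r else 0)
        + ((if q < r then overlap γ δ q r else 0) + (if r < q then overlap γ δ r q else 0)) := by
      intro q r
      rcases lt_trichotomy q r with h | h | h
      · simp [h, h.ne, h.not_gt]
      · simp [h]
      · simp [h, h.ne', h.not_gt, overlap_comm γ δ r q]
    rw [Finset.sum_congr rfl fun q _ => Finset.sum_congr rfl fun r _ => e q r]
    simp only [Finset.sum_add_distrib]
    have e1 : ∑ q ∈ S, ∑ r ∈ S, (if q = r then overlap γ δ q r else 0)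
        = ∑ q ∈ S, overlap γ δ q q := by
      refine Finset.sum_congr rfl fun q hq => ?_
      rw [Finset.sum_ite_eq, if_pos hq]
    have e2 : ∑ q ∈ S, ∑ r ∈ S, (if q < r then overlap γ δ q r else 0) = U := by
      rw [hU, Finset.sum_filter, Finset.sum_product]
    have e3 : ∑ q ∈ S, ∑ r ∈ S, (if r < q then overlap γ δ r q else 0) = U := by
      rw [Finset.sum_comm]; exact e2
    rw [e1, e2, e3]; ring
  have hd : ∑ q ∈ S, overlap γ δ q q ≤ C₄ * M := by
    rw [hMdef, Finset.mul_sum]
    exact Finset.sum_le_sum fun q hq => hdiag δ hδ q (hSq q hq)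
  set L := Finset.range (S.sup level + 1) with hL
  set σ := levelMass γ δ S with hσ
  have hσ0 : ∀ k, 0 ≤ σ k := levelMass_nonneg γ hδ S
  have hσsum : ∑ k ∈ L, σ k = M := by
    refine Finset.sum_fiberwise_of_maps_to (fun q hq => ?_) _
    exact Finset.mem_range.2 (Nat.lt_succ_of_le (Finset.le_sup (f := level) hq))
  have hpt : ∀ k l, k ≤ l → pairMain γ δ S k l + pairExcess γ δ S k l
      ≤ 32 * (σ k * σ l) + B * (gap (l - k) * σ k + gap (l - k) * σ l) + B * levelErr l := by
    intro k l hkl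
    have h0 : 0 ≤ gap (l - k) * (σ k + σ l) :=
      mul_nonneg (gap_pos _).le (add_nonneg (hσ0 k) (hσ0 l))
    have h1 := hmain δ hδ S hSq k l hkl
    have hBe : 0 ≤ C₂ * levelErr l + C₃ * levelErr l := by have := herr0 l; positivity
    by_cases hs : 8 * (l - k) < l
    · have h2 := hsmall δ hδ S hSd k l hkl hs
      have a := mul_nonneg hC₂ h0
      rw [hB]
      linarith
    · have h2 := hlarge δ hδ S hSq k l hkl hs
      have a := mul_nonneg hC₁ h0
      have a2 := mul_nonneg hC₁ (herr0 l)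
      have a3 := mul_nonneg hC₂ (mul_nonneg (gap_pos (l - k)).le (hσ0 k))
      rw [hB]
      linarith
  have hUle : U ≤ ∑ k ∈ L, ∑ l ∈ L, if k ≤ l then
      pairMain γ δ S k l + pairExcess γ δ S k l else 0 := by
    rw [hU, ← Finset.sum_fiberwise_of_maps_to (g := fun p => (level p.1, level p.2)) (t := L ×ˢ L)
      (fun p hp => ?_)]
    swap
    · obtain ⟨h1, h2⟩ := Finset.mem_product.1 (Finset.mem_filter.1 hp).1
      exact Finset.mem_product.2
        ⟨Finset.mem_range.2 (Nat.lt_succ_of_le (Finset.le_sup (f := level) h1)),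
          Finset.mem_range.2 (Nat.lt_succ_of_le (Finset.le_sup (f := level) h2))⟩
    rw [Finset.sum_product]
    refine Finset.sum_le_sum fun k _ => Finset.sum_le_sum fun l _ => ?_
    split_ifs with hkl
    · have heq : ((S ×ˢ S).filter (fun p => p.1 < p.2)).filter
          (fun p => (level p.1, level p.2) = (k, l))
          = ((levelSet S k) ×ˢ (levelSet S l)).filter (fun p => p.1 < p.2) := by
        ext p
        simp only [levelSet, Finset.mem_filter, Finset.mem_product, Prod.mk.injEq]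
        tauto
      rw [heq]
      calc _ ≤ ∑ p ∈ (levelSet S k ×ˢ levelSet S l).filter (fun p => p.1 < p.2),
            (mainTerm γ δ (zPar k l) p.1 p.2 + excess γ δ p.1 p.2) := by
            refine Finset.sum_le_sum fun p hp => ?_
            obtain ⟨h1, h2⟩ := Finset.mem_product.1 (Finset.mem_filter.1 hp).1
            have e1 := (Finset.mem_filter.1 h1).2
            have e2 := (Finset.mem_filter.1 h2).2
            have : overlap γ δ p.1 p.2 - mainTerm γ δ (zPar (level p.1) (level p.2)) p.1 p.2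
                ≤ excess γ δ p.1 p.2 := le_max_right _ _
            rw [e1, e2] at this
            linarith
        _ ≤ _ := by
            rw [Finset.sum_add_distrib]
            refine add_le_add ?_ le_rfl
            calc _ ≤ ∑ p ∈ levelSet S k ×ˢ levelSet S l, mainTerm γ δ (zPar k l) p.1 p.2 :=
                  Finset.sum_le_sum_of_subset_of_nonneg (Finset.filter_subset _ _)
                    fun p _ _ => mainTerm_nonneg γ hδ _ _ _
              _ = _ := by
                  rw [pairMain, mul_assoc, Finset.sum_mul_sum, Finset.mul_sum, Finset.sum_product]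
                  refine Finset.sum_congr rfl fun q _ => ?_
                  rw [Finset.mul_sum]
                  refine Finset.sum_congr rfl fun r _ => ?_
                  unfold mainTerm; ring
    · refine le_of_eq (Finset.sum_eq_zero fun p hp => ?_)
      obtain ⟨hp1, hp2⟩ := Finset.mem_filter.1 hp
      simp only [Prod.mk.injEq] at hp2
      have : level p.1 ≤ level p.2 := Nat.log_mono_right (Finset.mem_filter.1 hp1).2.le
      omega
  have hsumbound : U ≤ 32 * M ^ 2 + 2 * B * G * M + B * Eh := by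
    refine hUle.trans ?_
    calc _ ≤ ∑ k ∈ L, ∑ l ∈ L, (32 * (σ k * σ l)
          + B * ((if k ≤ l then gap (l - k) else 0) * σ k + (if k ≤ l then gap (l - k) else 0) * σ l)
          + B * (if k ≤ l then levelErr l else 0)) := by
          refine Finset.sum_le_sum fun k _ => Finset.sum_le_sum fun l _ => ?_
          split_ifs with hkl
          · exact hpt k l hkl
          · simp only [zero_mul, add_zero, mul_zero]
            have := hσ0 k; have := hσ0 l; positivity
      _ = 32 * M ^ 2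
          + B * (∑ k ∈ L, (∑ l ∈ L, if k ≤ l then gap (l - k) else 0) * σ k
            + ∑ l ∈ L, (∑ k ∈ L, if k ≤ l then gap (l - k) else 0) * σ l)
          + B * ∑ l ∈ L, ∑ k ∈ L, (if k ≤ l then levelErr l else 0) := by
          simp only [Finset.sum_add_distrib, ← Finset.mul_sum, ← Finset.sum_mul]
          rw [Finset.sum_comm (f := fun k l => (if k ≤ l then gap (l - k) else 0) * σ l),
            Finset.sum_comm (f := fun k l => (if k ≤ l then levelErr l else 0))]
          simp only [← Finset.sum_mul, hσsum]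
          rw [pow_two]
      _ ≤ 32 * M ^ 2 + B * (∑ k ∈ L, G * σ k + ∑ l ∈ L, G * σ l) + B * Eh := by
          have hB0 : 0 ≤ B := by positivity
          refine add_le_add (add_le_add le_rfl (mul_le_mul_of_nonneg_left (add_le_add ?_ ?_) hB0))
            (mul_le_mul_of_nonneg_left ?_ hB0)
          · refine Finset.sum_le_sum fun k _ => mul_le_mul_of_nonneg_right ?_ (hσ0 k)
            rw [← Finset.sum_filter]
            refine sum_gap_le _ (fun l => l - k) fun x hx y hy h => ?_
            have := (Finset.mem_filter.1 hx).2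
            have := (Finset.mem_filter.1 hy).2
            simp only at h
            omega
          · refine Finset.sum_le_sum fun l _ => mul_le_mul_of_nonneg_right ?_ (hσ0 l)
            rw [← Finset.sum_filter]
            refine sum_gap_le _ (fun k => l - k) fun x hx y hy h => ?_
            have := (Finset.mem_filter.1 hx).2
            have := (Finset.mem_filter.1 hy).2
            simp only at h
            omega
          · refine le_trans (Finset.sum_le_sum fun l _ => ?_)
              (summable_levelErr_mul.sum_le_tsum L fun l _ => mul_nonneg (by positivity) (herr0 l))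
            rw [← Finset.sum_filter, Finset.sum_const, nsmul_eq_mul]
            refine mul_le_mul_of_nonneg_right ?_ (herr0 l)
            have : (L.filter (fun k => k ≤ l)).card ≤ l + 1 := by
              refine (Finset.card_le_card (t := Finset.range (l + 1)) fun k hk => ?_).trans (by simp)
              exact Finset.mem_range.2 (Nat.lt_succ_of_le (Finset.mem_filter.1 hk).2)
            exact_mod_cast this
      _ = _ := by rw [← Finset.mul_sum, hσsum]; ring
  rw [hsplit]
  set M₀ := ∑ q ∈ S₀, mass γ δ q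
  have hsq : M ^ 2 ≤ M₀ ^ 2 := pow_le_pow_left₀ hM0 hSM 2
  have hB0 : 0 ≤ B := by positivity
  have a1 : 0 ≤ (C₄ + 4 * B * G) * M₀ ^ 2 := by positivity
  have a2 : 0 ≤ 2 * B * Eh * M₀ ^ 2 := by positivity
  have hM₀ : 0 ≤ M₀ := hM0.trans hSM
  have a3 : 0 ≤ (64 + 2 * B * Eh) * M₀ := by positivity
  have a4 : 0 ≤ C₄ + 64 + 4 * B * G := by positivity
  have a5 : (C₄ + 4 * B * G) * M ≤ (C₄ + 4 * B * G) * M₀ :=
    mul_le_mul_of_nonneg_left hSM (by positivity)
  linarith

end Vale.Agent.P028
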