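import Mathlib
import Vale.Agent.P028.Assembly
import Vale.Agent.P028.Criterion

/-!
# Full measure for `ψ = O(1/q)` and every shift
-/

namespace Vale.Agent.P028

open MeasureTheory Filter

/-- The core statement, in terms of radii `δ q ≤ 1 / (16 q ^ 2)`. -/
theorem approxSet_full (γ : ℝ) (δ : ℕ → ℝ) (hδ : SmallRadii δ)
    (hdiv : ¬ Summable (mass γ δ)) :
    volume {x : ℝ | ¬ {q : ℕ | x ∈ approxSet γ δ q}.Infinite} = 0 := by
  obtain ⟨C, hC, hsq⟩ := exists_second_moment γ
  refine null_of_criterion (approxSet γ δ) (fun q => 2 * mass γ δ q)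
    (fun q => isOpen_approxSet γ δ q) (fun q x => approxSet_periodic γ hδ q x)
    (fun q => by have := mass_nonneg (fun q => (hδ.2 q).1) γ q; positivity) ?_ ?_ C hC ?_
  · intro h
    exact hdiv ((h.mul_left (1 / 2)).congr fun q => by ring)
  · intro ε hε M hM
    obtain ⟨C₁, hC₁, hτ⟩ := exists_card_divisors_pow_le 4
    obtain ⟨n, hn⟩ := exists_nat_gt (9 * C₁ / ε ^ 2)
    refine ⟨n + 1, fun q hq j _ => ?_⟩
    have hq0 : 0 < q := by omega
    have hq' : (0 : ℝ) < q := by exact_mod_cast hq0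
    have hM' : (0 : ℝ) < M := by exact_mod_cast hM
    have h := approxSet_equidist γ hδ hq0 (x := (j : ℝ) / M) (y := ((j : ℝ) + 1) / M)
      (div_le_div_of_nonneg_right (by linarith) hM'.le)
    have e : 2 * mass γ δ q * (((j : ℝ) + 1) / M - (j : ℝ) / M) = 2 * mass γ δ q / M := by ring
    rw [e] at h
    refine h.trans ?_
    set τ : ℝ := (q.divisors.card : ℝ) with hτdef
    have hd := (hδ.2 q).1
    have hp := propKeep_pos γ q
    have hw : 1 ≤ propKeep γ q * τ := one_le_propKeep_mul_card γ q hq0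
    have h4 : τ ^ 4 ≤ C₁ * q := hτ q hq0
    have hqn : 9 * C₁ / ε ^ 2 ≤ q := by
      have : (n : ℝ) + 1 ≤ q := by exact_mod_cast hq
      linarith
    rw [div_le_iff₀ (by positivity)] at hqn
    have h2 : 3 * τ ^ 2 ≤ ε * q := by
      refine (pow_le_pow_iff_left₀ (by positivity) (by positivity) two_ne_zero).1 ?_
      calc (3 * τ ^ 2) ^ 2 = 9 * τ ^ 4 := by ring
        _ ≤ 9 * (C₁ * q) := by linarith
        _ ≤ (q * ε ^ 2) * q := by
            rw [← mul_assoc]
            exact mul_le_mul_of_nonneg_right hqn hq'.le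
        _ = _ := by ring
    have h3 : 3 * τ ≤ ε * (q * propKeep γ q) := by
      calc 3 * τ = 3 * τ * 1 := (mul_one _).symm
        _ ≤ 3 * τ * (propKeep γ q * τ) := mul_le_mul_of_nonneg_left hw (by positivity)
        _ = propKeep γ q * (3 * τ ^ 2) := by ring
        _ ≤ propKeep γ q * (ε * q) := mul_le_mul_of_nonneg_left h2 hp.le
        _ = _ := by ring
    have h5 := mul_le_mul_of_nonneg_left h3 (by positivity : 0 ≤ 2 * δ q)
    unfold mass
    linarith
  · intro S _
    refine (hsq δ hδ S).trans ?_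
    refine mul_le_mul_of_nonneg_left ?_ hC
    rw [← Finset.mul_sum]
    have h0 : 0 ≤ ∑ q ∈ S, mass γ δ q :=
      Finset.sum_nonneg fun q _ => mass_nonneg (fun q => (hδ.2 q).1) γ q
    nlinarith

/-- The main theorem. -/
theorem full_measure_min (γ : ℝ) (ψ : ℕ → ℝ) (hψ : ∀ q, 0 ≤ ψ q)
    (hdiv : ¬ Summable (fun q : ℕ => (Nat.totient q : ℝ) / q * min (ψ q) (1 / (q : ℝ)))) :
    volume {x : ℝ | ¬ {q : ℕ | 0 < q ∧ ∃ a : ℤ, |(q : ℝ) * x - a - γ| < ψ q}.Infinite} = 0 := by
  set δ : ℕ → ℝ := fun q => min (ψ q) (1 / (q : ℝ)) / (16 * q) with hδdef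
  have hδ : SmallRadii δ := by
    refine ⟨by simp [hδdef], fun q => ⟨?_, ?_⟩⟩
    · simp only [hδdef]
      have := le_min (hψ q) (by positivity : (0 : ℝ) ≤ 1 / (q : ℝ))
      positivity
    · rcases Nat.eq_zero_or_pos q with rfl | hq
      · simp
      have hq' : (0 : ℝ) < q := by exact_mod_cast hq
      simp only [hδdef]
      calc min (ψ q) (1 / (q : ℝ)) / (16 * q) * (q : ℝ) ^ 2
          ≤ (1 / (q : ℝ)) / (16 * q) * (q : ℝ) ^ 2 := by gcongr; exact min_le_right _ _
        _ = _ := by field_simp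
  have hm : ¬ Summable (mass γ δ) := by
    intro h
    refine hdiv (Summable.of_nonneg_of_le (fun q => ?_) (fun q => ?_) (h.mul_left 16))
    · have := le_min (hψ q) (by positivity : (0 : ℝ) ≤ 1 / (q : ℝ))
      positivity
    · rcases Nat.eq_zero_or_pos q with rfl | hq
      · simp [mass]
      have hq' : (0 : ℝ) < q := by exact_mod_cast hq
      have := totient_div_le_propKeep γ q
      have h0 := le_min (hψ q) (by positivity : (0 : ℝ) ≤ 1 / (q : ℝ))
      calc (Nat.totient q : ℝ) / q * min (ψ q) (1 / (q : ℝ))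
          ≤ propKeep γ q * min (ψ q) (1 / (q : ℝ)) := mul_le_mul_of_nonneg_right this h0
        _ = _ := by simp only [mass, hδdef]; field_simp
  refine measure_mono_null ?_ (approxSet_full γ δ hδ hm)
  intro x hx hinf
  refine hx (hinf.mono fun q hq => ?_)
  obtain ⟨a, _, ha⟩ := hq
  have hq0 : 0 < q := Nat.pos_of_ne_zero fun h => by
    subst h
    rw [hδ.1] at ha
    exact (abs_nonneg _).not_gt ha
  have hq' : (0 : ℝ) < q := by exact_mod_cast hq0
  refine ⟨hq0, a, ?_⟩
  have e : (q : ℝ) * x - a - γ = q * (x - ((a : ℝ) + γ) / q) := by field_simp; ring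
  rw [e, abs_mul, abs_of_pos hq']
  calc (q : ℝ) * |x - ((a : ℝ) + γ) / q| < q * δ q := mul_lt_mul_of_pos_left ha hq'
    _ = min (ψ q) (1 / (q : ℝ)) / 16 := by simp only [hδdef]; field_simp
    _ ≤ ψ q := by
        have := min_le_left (ψ q) (1 / (q : ℝ))
        have := hψ q
        linarith

end Vale.Agent.P028
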